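/-
R335/LO/Defs: definitions of block LO and the calculus of weak gradients.  Author: helper14.
-/
import Crest.Agent.R335.RT.Main

set_option autoImplicit false
set_option linter.unusedSectionVars false
set_option linter.unusedVariables false
set_option linter.unusedSimpArgs false

noncomputable section

namespace Crest.Agent.R335

open MeasureTheory Set Filter Topology Metric
open scoped ENNReal

/-- `f ∈ LH` with weak gradient `f'`. -/
def DW (f : X → ℝ) (f' : Fin 3 → X → ℝ) : Prop :=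
  LH eX f ∧ ∀ᵐ x : X, ∀ i, wd (eX i) f x = f' i x

/-- The logarithm of the sphere barrier. -/
def loL (α e d N : ℝ) : ℝ := (1 + α) * Real.log e + Real.log (e ^ 2 + d ^ 2 + N ^ 2) -
  (3 + α) * Real.log (√(e ^ 2 + d ^ 2) + d)
/-- `ρ ∂ℓ/∂e`. -/
def loGe (α e d N : ℝ) : ℝ :=
  2 * e + (e ^ 2 + d ^ 2 + N ^ 2) / e * ((3 + α) * (d / √(e ^ 2 + d ^ 2)) - 2)
/-- `ρ ∂ℓ/∂d`. -/
def loGd (α e d N : ℝ) : ℝ := 2 * d - (3 + α) * ((e ^ 2 + d ^ 2 + N ^ 2) / √(e ^ 2 + d ^ 2))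
/-- The derivative of `loL` in the direction `(ξe, ξd, ξN)`. -/
def loL' (α e d N ξe ξd ξN : ℝ) : ℝ :=
  (loGe α e d N * ξe + loGd α e d N * ξd + 2 * N * ξN) / (e ^ 2 + d ^ 2 + N ^ 2)
/-- The derivative of `loGe` in the direction `(ξe, ξd, ξN)`. -/
def loGe' (α e d N ξe ξd ξN : ℝ) : ℝ :=
  2 * ξe + ((2 * e * ξe + 2 * d * ξd + 2 * N * ξN) * e - (e ^ 2 + d ^ 2 + N ^ 2) * ξe) / e ^ 2 *
      ((3 + α) * (d / √(e ^ 2 + d ^ 2)) - 2) +
    (e ^ 2 + d ^ 2 + N ^ 2) / e * ((3 + α) * ((ξd * √(e ^ 2 + d ^ 2) -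
      d * ((e * ξe + d * ξd) / √(e ^ 2 + d ^ 2))) / √(e ^ 2 + d ^ 2) ^ 2))
/-- The derivative of `loGd` in the direction `(ξe, ξd, ξN)`. -/
def loGd' (α e d N ξe ξd ξN : ℝ) : ℝ :=
  2 * ξd - (3 + α) * (((2 * e * ξe + 2 * d * ξd + 2 * N * ξN) * √(e ^ 2 + d ^ 2) -
    (e ^ 2 + d ^ 2 + N ^ 2) * ((e * ξe + d * ξd) / √(e ^ 2 + d ^ 2))) / √(e ^ 2 + d ^ 2) ^ 2)

/-- `div (ρ ∇ℓ) + ρ |∇ℓ|² ≥ -C ρ` weakly in `S`. -/
def LogSub (S : Set X) (ρ ℓ : X → ℝ) (C : ℝ) : Prop :=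
  ∀ ψ : X → ℝ, LT eX ψ → (∀ᵐ x : X, 0 ≤ ψ x) → (∀ᵐ x : X, x ∉ S → ψ x = 0) →
    ∫ x, ρ x * (dot eX ℓ ψ x - dot eX ℓ ℓ x * ψ x) ≤ C * ∫ x, ρ x * ψ x

/-- `div (ρ ∇ℓ) + ρ |∇ℓ|² ≤ C ρ` weakly in `S`. -/
def LogSup (S : Set X) (ρ ℓ : X → ℝ) (C : ℝ) : Prop :=
  ∀ ψ : X → ℝ, LT eX ψ → (∀ᵐ x : X, 0 ≤ ψ x) → (∀ᵐ x : X, x ∉ S → ψ x = 0) →
    -(C * ∫ x, ρ x * ψ x) ≤ ∫ x, ρ x * (dot eX ℓ ψ x - dot eX ℓ ℓ x * ψ x)

/-- `div (W ∇v) ≥ W |∇v|² - C W` weakly in `S`. -/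
def QSub (S : Set X) (W v : X → ℝ) (C : ℝ) : Prop :=
  ∀ φ : X → ℝ, LT eX φ → (∀ᵐ x : X, 0 ≤ φ x) → (∀ᵐ x : X, x ∉ S → φ x = 0) →
    ∫ x, W x * (dot eX v φ x + dot eX v v x * φ x) ≤ C * ∫ x, W x * φ x

variable {f g : X → ℝ} {f' g' : Fin 3 → X → ℝ}

theorem DW.of_ae (h : LH eX f) (h' : ∀ i, wd (eX i) f =ᵐ[volume] f' i) : DW f f' :=
  ⟨h, ae_all_iff.2 h'⟩

theorem LH.dw (h : LH eX f) : DW f fun i => wd (eX i) f := ⟨h, .of_forall fun _ _ => rfl⟩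

theorem DW.congr' (h : DW f f') (h' : ∀ᵐ x : X, ∀ i, f' i x = g' i x) : DW f g' :=
  ⟨h.1, by filter_upwards [h.2, h'] with x h1 h2 i using (h1 i).trans (h2 i)⟩

theorem DW.const (c : ℝ) : DW (fun _ => c) fun _ _ => 0 :=
  .of_ae (LH.const c) fun i => wd_const _ c

theorem DW.add (h : DW f f') (h' : DW g g') :
    DW (fun x => f x + g x) fun i x => f' i x + g' i x :=
  ⟨h.1.add h'.1, by
    filter_upwards [h.2, h'.2, ae_all_iff.2 fun i => h.1.1.wd_add h'.1.1 i] with x h1 h2 h3 i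
    rw [h3, h1, h2]⟩

theorem DW.sub (h : DW f f') (h' : DW g g') :
    DW (fun x => f x - g x) fun i x => f' i x - g' i x :=
  ⟨h.1.sub h'.1, by
    filter_upwards [h.2, h'.2, ae_all_iff.2 fun i => h.1.1.wd_sub h'.1.1 i] with x h1 h2 h3 i
    rw [h3, h1, h2]⟩

theorem DW.neg (h : DW f f') : DW (fun x => -f x) fun i x => -f' i x :=
  ⟨h.1.neg, by
    filter_upwards [h.2, ae_all_iff.2 fun i => h.1.1.wd_neg i] with x h1 h3 i
    rw [h3, h1]⟩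

theorem DW.const_mul (h : DW f f') (c : ℝ) : DW (fun x => c * f x) fun i x => c * f' i x :=
  ⟨h.1.const_mul c, by
    filter_upwards [h.2, ae_all_iff.2 fun i => h.1.1.wd_const_mul c i] with x h1 h3 i
    rw [h3, h1]⟩

theorem DW.mul (h : DW f f') (h' : DW g g') :
    DW (fun x => f x * g x) fun i x => f' i x * g x + f x * g' i x :=
  ⟨h.1.mul h'.1, by
    filter_upwards [h.2, h'.2, ae_all_iff.2 fun i => h.1.wd_mul h'.1 i] with x h1 h2 h3 i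
    rw [h3, h1, h2]⟩

theorem DW.div (h : DW f f') (h' : DW g g') (hp : LocPos g) :
    DW (fun x => f x / g x) fun i x => (f' i x * g x - f x * g' i x) / g x ^ 2 :=
  ⟨(h.1.div h'.1 hp).1, by
    filter_upwards [h.2, h'.2, ae_all_iff.2 (h.1.div h'.1 hp).2] with x h1 h2 h3 i
    rw [h3, h1, h2]⟩

theorem DW.log (h : DW f f') (hp : LocPos f) :
    DW (fun x => Real.log (f x)) fun i x => f' i x / f x :=
  ⟨(h.1.log hp).1, by
    filter_upwards [h.2, ae_all_iff.2 (h.1.log hp).2] with x h1 h3 i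
    rw [h3, h1]⟩

theorem DW.exp (h : DW f f') :
    DW (fun x => Real.exp (f x)) fun i x => Real.exp (f x) * f' i x :=
  ⟨h.1.exp.1, by
    filter_upwards [h.2, ae_all_iff.2 h.1.exp.2] with x h1 h3 i
    rw [h3, h1]⟩

theorem DW.sq (h : DW f f') : DW (fun x => f x ^ 2) fun i x => 2 * f x * f' i x :=
  ⟨h.1.sq.1, by
    filter_upwards [h.2, ae_all_iff.2 h.1.sq.2] with x h1 h3 i
    rw [h3, h1]⟩

theorem DW.posPart (h : DW f f') :
    DW (fun x => max (f x) 0) fun i x => if 0 < f x then f' i x else 0 :=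
  ⟨h.1.posPart, by
    filter_upwards [h.2, ae_all_iff.2 h.1.1.posPart.2] with x h1 h3 i
    rw [h3, h1]⟩

theorem DW.norm2 (h : DW f f') (h' : DW g g') : DW (fun x => √(f x ^ 2 + g x ^ 2))
    fun i x => (f x * f' i x + g x * g' i x) / √(f x ^ 2 + g x ^ 2) := by
  refine ⟨⟨(h.1.1.norm2 h'.1.1).1, fun R => ?_⟩, ?_⟩
  · obtain ⟨M, hM⟩ := h.1.2 R
    obtain ⟨M', hM'⟩ := h'.1.2 R
    refine ⟨M + M', ?_⟩
    filter_upwards [hM, hM'] with x h1 h2 h3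
    have a1 := h1 h3
    have a2 := h2 h3
    rw [abs_of_nonneg (Real.sqrt_nonneg _)]
    refine Real.sqrt_le_iff.2 ⟨by linarith [abs_nonneg (f x), abs_nonneg (g x)], ?_⟩
    nlinarith [abs_nonneg (f x), abs_nonneg (g x), sq_abs (f x), sq_abs (g x)]
  · filter_upwards [h.2, h'.2, ae_all_iff.2 (h.1.1.norm2 h'.1.1).2] with x h1 h2 h3 i
    rw [h3, h1, h2]

theorem DW.of_contDiff {χ : X → ℝ} (h : ContDiff ℝ 1 χ) : DW χ fun i x => fderiv ℝ χ x (eX i) :=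
  .of_ae (.of_contDiff h) fun i => wd_contDiff h _

theorem DW.dot (h : DW f f') (h' : DW g g') :
    ∀ᵐ x : X, dot eX f g x = ∑ i, f' i x * g' i x := by
  filter_upwards [h.2, h'.2] with x h1 h2
  simp only [R335.dot, h1, h2]

/-- The gradient of a function vanishes where the function does. -/
theorem lo_wd_zero (h : HL eX f) : ∀ᵐ x : X, f x = 0 → ∀ i, wd (eX i) f x = 0 := by
  filter_upwards [ae_all_iff.2 fun i => h.wd_zero i] with x hx h0 i using hx i h0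

theorem lo_wd_eq (h : HL eX f) (h' : HL eX g) :
    ∀ᵐ x : X, f x = g x → ∀ i, wd (eX i) f x = wd (eX i) g x := by
  filter_upwards [ae_all_iff.2 fun i => h.wd_eq_of_eq h' i] with x hx h0 i using hx i h0

theorem LH.aesm (h : LH eX f) : AEStronglyMeasurable f volume := h.1.1.aesm

theorem LT.of_supp (h : LH eX f) (hg : LT eX g) (h0 : ∀ᵐ x : X, g x = 0 → f x = 0) : LT eX f := by
  obtain ⟨R, hR⟩ := hg.2
  exact ⟨h, R, by filter_upwards [hR, h0] with x h1 h2 h3 using h2 (h1 h3)⟩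

/-- `∫ W φ` for `W` locally bounded. -/
theorem LT.integrable_lb {W φ : X → ℝ} (hφ : LT eX φ) (hW : AEStronglyMeasurable W volume)
    (hW' : LocBdd W) : Integrable fun x => W x * φ x := by
  simpa only [one_mul] using
    hφ.integrable_mul (LocL2.of_locBdd aestronglyMeasurable_const (LocBdd.const 1))
      (LocL2.of_locBdd hW hW')

/-- `∫ W ∇f·∇g φ` for `W` locally bounded. -/
theorem lo_int_dot {W φ : X → ℝ} (hf : HL eX f) (hg : HL eX g) (hφ : LT eX φ)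
    (hW : AEStronglyMeasurable W volume) (hW' : LocBdd W) :
    Integrable fun x => W x * (dot eX f g x * φ x) := by
  simp only [dot, Finset.sum_mul, Finset.mul_sum]
  refine integrable_finsetSum _ fun i _ => ?_
  simpa only [mul_assoc] using hφ.integrable_mul ((hf.2 i).2.mul_locBdd hW hW') (hg.2 i).2

/-- The integrand of `LogSub`, `LogSup` is integrable. -/
theorem lo_int_log {ρ ℓ ψ : X → ℝ} (hρ : LH eX ρ) (hℓ : LH eX ℓ) (hψ : LT eX ψ) :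
    Integrable fun x => ρ x * (dot eX ℓ ψ x - dot eX ℓ ℓ x * ψ x) := by
  simp only [mul_sub]
  exact (hℓ.1.integrable_mul_dot hρ.aesm hρ.2 hψ).sub (lo_int_dot hℓ.1 hℓ.1 hψ hρ.aesm hρ.2)

/-- The integrand of `QSub` is integrable. -/
theorem lo_int_q {W v φ : X → ℝ} (hW : LH eX W) (hv : LH eX v) (hφ : LT eX φ) :
    Integrable fun x => W x * (dot eX v φ x + dot eX v v x * φ x) := by
  simp only [mul_add]
  exact (hv.1.integrable_mul_dot hW.aesm hW.2 hφ).add (lo_int_dot hv.1 hv.1 hφ hW.aesm hW.2)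

end Crest.Agent.R335
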