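/-
R335/LO/Alg: the pointwise algebra of the sphere barrier.  Skeleton by helper14.
-/
import Crest.Agent.R335.LO.Defs

set_option autoImplicit false
set_option linter.unusedSectionVars false
set_option linter.unusedVariables false
set_option linter.unusedSimpArgs false

noncomputable section

namespace Crest.Agent.R335

open MeasureTheory Set Filter Topology Metric
open scoped ENNReal

variable {α e d N R ξe ξd ξN : ℝ}

theorem lo_le_r (he : 0 < e) : e ≤ √(e ^ 2 + d ^ 2) :=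
  Real.le_sqrt_of_sq_le (by nlinarith [sq_nonneg d])

theorem lo_abs_le_r : |d| ≤ √(e ^ 2 + d ^ 2) :=
  Real.abs_le_sqrt (by nlinarith [sq_nonneg e])

theorem lo_r_sq : √(e ^ 2 + d ^ 2) ^ 2 = e ^ 2 + d ^ 2 := Real.sq_sqrt (by positivity)

theorem lo_rd (he : 0 < e) (hd : -e / 10 ≤ d) : 9 / 10 * e ≤ √(e ^ 2 + d ^ 2) + d := by
  linarith [lo_le_r (d := d) he]

/-- Euler's relation: `ℓ` is homogeneous of degree zero. -/
theorem lo_euler (he : 0 < e) : e * loGe α e d N + d * loGd α e d N + N * (2 * N) = 0 := by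
  have hr : 0 < √(e ^ 2 + d ^ 2) := he.trans_le (lo_le_r he)
  unfold loGe loGd
  field_simp
  ring

theorem lo_param (he : 0 < e) (hd : -e / 10 ≤ d) : ∃ t u : ℝ, 0 < t ∧ t ≤ 10 / 9 ∧ 0 < u ∧
    √(e ^ 2 + d ^ 2) = u * (1 + t ^ 2) / 2 ∧ e = t * u ∧ d = u * (1 - t ^ 2) / 2 := by
  have h1 := lo_rd he hd
  have h2 := lo_r_sq (e := e) (d := d)
  generalize √(e ^ 2 + d ^ 2) = r at h1 h2
  have hu : 0 < r + d := by linarith
  refine ⟨e / (r + d), r + d, by positivity, by rw [div_le_iff₀ hu]; linarith, hu, ?_, ?_, ?_⟩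
  · field_simp
    linear_combination h2
  · field_simp
  · field_simp
    linear_combination -h2

/-- The chain rule output is `loL'`. -/
theorem lo_dL (he : 0 < e) (hd : -e / 10 ≤ d) :
    (1 + α) * (ξe / e) + (2 * e * ξe + 2 * d * ξd + 2 * N * ξN) / (e ^ 2 + d ^ 2 + N ^ 2) -
      (3 + α) * (((e * ξe + d * ξd) / √(e ^ 2 + d ^ 2) + ξd) / (√(e ^ 2 + d ^ 2) + d)) =
      loL' α e d N ξe ξd ξN := by
  have hρ : 0 < e ^ 2 + d ^ 2 + N ^ 2 := by positivity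
  obtain ⟨t, u, ht, -, hu, h1, h2, h3⟩ := lo_param he hd
  have h4 : √(e ^ 2 + d ^ 2) + d = u := by rw [h1, h3]; ring
  unfold loL' loGe loGd
  rw [h4, h1]
  generalize e ^ 2 + d ^ 2 + N ^ 2 = ρ at hρ
  subst h2 h3
  field_simp
  ring

theorem lo_psd {a b c x y : ℝ} (ha : 0 < a) (h : b ^ 2 ≤ a * c) :
    0 ≤ a * x ^ 2 + 2 * b * x * y + c * y ^ 2 := by
  have : 0 ≤ a * (a * x ^ 2 + 2 * b * x * y + c * y ^ 2) := by
    nlinarith [sq_nonneg (a * x + b * y), mul_nonneg (sub_nonneg.2 h) (sq_nonneg y)]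
  exact (mul_nonneg_iff_of_pos_left ha).1 this

theorem lo_disc {x T q : ℝ} (hα : 0 ≤ α) (hα' : α ≤ 1 / 100) (hx : 0 ≤ x) (hx' : x ≤ 6 / 5)
    (hT : T ^ 2 ≤ 7 / 20 * (x * (2 - x)) + α / 20) (hq : q * (1 + T ^ 2) = T ^ 2) :
    (3 * T * (1 + α + 2 * x)) ^ 2 ≤ (2 + 6 * T ^ 2) *
      ((1 + α) * α + (7 + 5 * α) * x + 4 * x ^ 2 - 2 * q * (x * (2 - x))) := by
  have h0 := sq_nonneg T
  rw [mul_pow, mul_pow]
  generalize T ^ 2 = t at hT hq h0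
  have hs : 0 ≤ x * (2 - x) := mul_nonneg hx (by linarith)
  have ht : t ≤ 1 / 2 := by nlinarith [sq_nonneg (x - 1)]
  have hq0 : 0 ≤ q := by
    by_contra h
    nlinarith [mul_pos (neg_pos.2 (not_le.1 h)) (by linarith : 0 < 1 + t)]
  have h1 : (2 + 6 * t) * q ≤ 7 / 2 * t := by nlinarith [mul_nonneg hq0 (by linarith : 0 ≤ 3 / 5 - t)]
  have h2 : (2 + 6 * t) * q * (x * (2 - x)) ≤ 7 / 2 * t * (x * (2 - x)) :=
    mul_le_mul_of_nonneg_right h1 hs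
  have hB : 9 + 12 * α + 3 * α ^ 2 + (8 + 6 * α) * x + 5 * x ^ 2 ≤ 10 + 15 * x := by nlinarith
  have h3 : t * (9 + 12 * α + 3 * α ^ 2 + (8 + 6 * α) * x + 5 * x ^ 2) ≤
      (7 / 10 * x + α / 20) * (10 + 15 * x) :=
    mul_le_mul (by nlinarith [sq_nonneg x]) hB (by positivity) (by positivity)
  nlinarith [mul_nonneg hα hx, sq_nonneg α, mul_nonneg hx (by linarith : 0 ≤ 6 / 5 - x),
    mul_nonneg hα (by linarith : 0 ≤ 6 / 5 - x)]

/-- Geodesic convexity of `e^ℓ` on the sphere.  With `u = r + d`, `t = e / u`: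
`e = t u`, `r = u (1 + t²) / 2`, `d = u (1 - t²) / 2`. -/
theorem lo_Q (hα : 0 ≤ α) (hα' : α ≤ 1 / 100) (he : 0 < e) (hd : -e / 10 ≤ d)
    (hN : N ^ 2 ≤ 7 / 20 * e ^ 2 + α / 20 * d ^ 2) :
    0 ≤ ξe * loGe' α e d N ξe ξd ξN + ξd * loGd' α e d N ξe ξd ξN + ξN * (2 * ξN) +
      (e ^ 2 + d ^ 2 + N ^ 2) * loL' α e d N ξe ξd ξN ^ 2 := by
  have hρ : 0 < e ^ 2 + d ^ 2 + N ^ 2 := by positivity
  have hr : 0 < √(e ^ 2 + d ^ 2) := he.trans_le (lo_le_r he)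
  have hr2 := lo_r_sq (e := e) (d := d)
  have key : ξe * loGe' α e d N ξe ξd ξN + ξd * loGd' α e d N ξe ξd ξN + ξN * (2 * ξN) +
      (e ^ 2 + d ^ 2 + N ^ 2) * loL' α e d N ξe ξd ξN ^ 2 = (e ^ 2 + d ^ 2 + N ^ 2) *
      ((2 + 6 * (N / √(e ^ 2 + d ^ 2)) ^ 2) *
        ((√(e ^ 2 + d ^ 2) * ξN - N * ((e * ξe + d * ξd) / √(e ^ 2 + d ^ 2))) / (e ^ 2 + d ^ 2 + N ^ 2)) ^ 2 +
      2 * (3 * (N / √(e ^ 2 + d ^ 2)) * (1 + α + 2 * (1 - d / √(e ^ 2 + d ^ 2)))) *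
        ((√(e ^ 2 + d ^ 2) * ξN - N * ((e * ξe + d * ξd) / √(e ^ 2 + d ^ 2))) / (e ^ 2 + d ^ 2 + N ^ 2)) *
        ((d * ξe - e * ξd) / (e * √(e ^ 2 + d ^ 2))) +
      ((1 + α) * α + (7 + 5 * α) * (1 - d / √(e ^ 2 + d ^ 2)) + 4 * (1 - d / √(e ^ 2 + d ^ 2)) ^ 2 -
        2 * (N ^ 2 / (e ^ 2 + d ^ 2 + N ^ 2)) * ((1 - d / √(e ^ 2 + d ^ 2)) * (2 - (1 - d / √(e ^ 2 + d ^ 2))))) *
        ((d * ξe - e * ξd) / (e * √(e ^ 2 + d ^ 2))) ^ 2) := by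
    obtain ⟨t, u, ht, -, hu, h1, h2, h3⟩ := lo_param he hd
    unfold loL' loGe loGd loGe' loGd'
    rw [h1]
    subst h2 h3
    field_simp
    ring
  rw [key]
  have hd1 := abs_le.1 (lo_abs_le_r (e := e) (d := d))
  have hd2 := lo_le_r (d := d) he
  generalize √(e ^ 2 + d ^ 2) = r at hr hr2 hd1 hd2
  have hs : (1 - d / r) * (2 - (1 - d / r)) = e ^ 2 / r ^ 2 := by
    field_simp
    linear_combination hr2
  refine mul_nonneg hρ.le (lo_psd (by positivity) (lo_disc hα hα' ?_ ?_ ?_ ?_))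
  · rw [sub_nonneg, div_le_one hr]
    exact hd1.2
  · have : -(1 / 5) ≤ d / r := by
      rw [le_div_iff₀ hr]
      linarith
    linarith
  · rw [hs, div_pow, div_le_iff₀ (by positivity)]
    have : (7 / 20 * (e ^ 2 / r ^ 2) + α / 20) * r ^ 2 = 7 / 20 * e ^ 2 + α / 20 * r ^ 2 := by
      field_simp
    nlinarith [mul_nonneg hα (sq_nonneg e)]
  · rw [← hr2]
    field_simp

theorem lo_Ge_le (hα : 0 ≤ α) (hα' : α ≤ 1 / 100) (he : 0 < e) :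
    e * |loGe α e d N| ≤ 8 * (e ^ 2 + d ^ 2 + N ^ 2) := by
  have hr : 0 < √(e ^ 2 + d ^ 2) := he.trans_le (lo_le_r he)
  have h1 : |d / √(e ^ 2 + d ^ 2)| ≤ 1 := by
    rw [abs_div, abs_of_pos hr, div_le_one hr]
    exact lo_abs_le_r
  have h2 : e * loGe α e d N =
      2 * e ^ 2 + (e ^ 2 + d ^ 2 + N ^ 2) * ((3 + α) * (d / √(e ^ 2 + d ^ 2)) - 2) := by
    unfold loGe
    field_simp
  rw [← abs_of_pos he, ← abs_mul, abs_of_pos he, h2]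
  obtain ⟨h3, h4⟩ := abs_le.1 h1
  generalize d / √(e ^ 2 + d ^ 2) = c at h3 h4
  have hρ : 0 ≤ e ^ 2 + d ^ 2 + N ^ 2 := by positivity
  have h5 : (3 + α) * c - 2 ≤ 6 := by nlinarith
  have h6 : -6 ≤ (3 + α) * c - 2 := by nlinarith
  rw [abs_le]
  constructor <;> nlinarith [mul_le_mul_of_nonneg_left h5 hρ, mul_le_mul_of_nonneg_left h6 hρ,
    sq_nonneg e, sq_nonneg d, sq_nonneg N]

theorem lo_R_le (hα : 0 ≤ α) (hα' : α ≤ 1 / 100) (hN : N ^ 2 ≤ 7 / 20 * e ^ 2 + α / 20 * d ^ 2)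
    (hR2 : R ^ 2 = e ^ 2 + d ^ 2 + N ^ 2) : R ≤ 6 / 5 * √(e ^ 2 + d ^ 2) := by
  refine abs_le_of_sq_le_sq' ?_ (by positivity) |>.2
  rw [mul_pow, lo_r_sq]
  nlinarith [sq_nonneg e, sq_nonneg d]

theorem lo_le_R (hR : 0 ≤ R) (hR2 : R ^ 2 = e ^ 2 + d ^ 2 + N ^ 2) : √(e ^ 2 + d ^ 2) ≤ R :=
  Real.sqrt_le_iff.2 ⟨hR, by nlinarith [sq_nonneg N]⟩

theorem lo_Gd_le (hα : 0 ≤ α) (hα' : α ≤ 1 / 100) (he : 0 < e)
    (hN : N ^ 2 ≤ 7 / 20 * e ^ 2 + α / 20 * d ^ 2) (hR : 0 ≤ R)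
    (hR2 : R ^ 2 = e ^ 2 + d ^ 2 + N ^ 2) : R * |loGd α e d N| ≤ 6 * R ^ 2 := by
  have hr : 0 < √(e ^ 2 + d ^ 2) := he.trans_le (lo_le_r he)
  have h1 := lo_R_le hα hα' hN hR2
  have h2 := lo_le_R hR hR2
  have h3 := abs_le.1 (lo_abs_le_r (e := e) (d := d))
  unfold loGd
  rw [← hR2]
  generalize √(e ^ 2 + d ^ 2) = r at hr h1 h2 h3
  have h4 : R ^ 2 / r ≤ 6 / 5 * R := by
    rw [div_le_iff₀ hr]
    nlinarith
  have h5 : 0 ≤ R ^ 2 / r := by positivity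
  have h6 : |2 * d - (3 + α) * (R ^ 2 / r)| ≤ 6 * R := by
    rw [abs_le]
    constructor <;> nlinarith
  nlinarith [mul_le_mul_of_nonneg_left h6 hR]

/-- `e^ℓ ≍ e / R`. -/
theorem lo_log {L : ℝ} (hα : 0 ≤ α) (hα' : α ≤ 1 / 100) (hL : 0 ≤ L) (hαL : α * (L + 2) ≤ 1 / 2)
    (he : 0 < e) (hd : -e / 10 ≤ d) (hN : N ^ 2 ≤ 7 / 20 * e ^ 2 + α / 20 * d ^ 2) (hR : 0 ≤ R)
    (hR2 : R ^ 2 = e ^ 2 + d ^ 2 + N ^ 2) (hRe : R ≤ Real.exp L * e) :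
    |loL α e d N - (Real.log e - Real.log R)| ≤ 4 := by
  have h0 := lo_le_r (d := d) he
  have h1 := lo_R_le hα hα' hN hR2
  have h2 := lo_le_R hR hR2
  have h3 := abs_le.1 (lo_abs_le_r (e := e) (d := d))
  unfold loL
  rw [← hR2, Real.log_pow]
  generalize √(e ^ 2 + d ^ 2) = r at h0 h1 h2 h3
  have hu : 0 < r + d := by linarith
  have hR' : 0 < R := by linarith
  have l2 : Real.log 2 ≤ 1 := by linarith [Real.log_le_sub_one_of_pos two_pos]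
  have a1 : Real.log (r + d) ≤ Real.log 2 + Real.log R := by
    rw [← Real.log_mul two_ne_zero hR'.ne']
    exact Real.log_le_log hu (by linarith)
  have a2 : Real.log R ≤ Real.log 2 + Real.log (r + d) := by
    rw [← Real.log_mul two_ne_zero hu.ne']
    exact Real.log_le_log hR' (by linarith)
  have a3 : Real.log e ≤ Real.log R := Real.log_le_log he (by linarith)
  have a4 : Real.log R ≤ L + Real.log e := by
    have := Real.log_le_log hR' hRe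
    rwa [Real.log_mul (Real.exp_pos L).ne' he.ne', Real.log_exp] at this
  have b1 : α * (Real.log e - Real.log (r + d)) ≤ α * 1 :=
    mul_le_mul_of_nonneg_left (by linarith) hα
  have b2 : α * (-(L + 1)) ≤ α * (Real.log e - Real.log (r + d)) :=
    mul_le_mul_of_nonneg_left (by linarith) hα
  push_cast
  rw [abs_le]
  constructor <;> nlinarith

end Crest.Agent.R335
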