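/-
R335/LO/Bar: the barrier is a subsolution.  Skeleton by helper14.
-/
import Crest.Agent.R335.LO.Alg

set_option autoImplicit false
set_option linter.unusedSectionVars false
set_option linter.unusedVariables false
set_option linter.unusedSimpArgs false

noncomputable section

namespace Crest.Agent.R335

open MeasureTheory Set Filter Topology Metric
open scoped ENNReal

variable {S : Set X} {e d N R a s f g : X → ℝ}

/-- `Sub` only depends on the values in `S` (`lo_wd_eq`, `lo_wd_zero`). -/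
theorem Sub.congr_on (h : Sub eX S f a s) (hf : HL eX f) (hg : HL eX g)
    (he : ∀ᵐ x : X, x ∈ S → f x = g x) : Sub eX S g a s := by
  intro φ h1 h2 h3
  have e1 : dir eX g φ = dir eX f φ := by
    refine integral_congr_ae ?_
    filter_upwards [he, h3, lo_wd_eq hf hg, lo_wd_zero h1.1.1] with x a1 a2 a3 a4
    by_cases hx : x ∈ S
    · simp only [dot, a3 (a1 hx)]
    · simp only [dot, a4 (a2 hx), mul_zero]
  have e2 : ∫ x, a x * g x * φ x = ∫ x, a x * f x * φ x := by
    refine integral_congr_ae ?_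
    filter_upwards [he, h3] with x a1 a2
    by_cases hx : x ∈ S
    · rw [a1 hx]
    · rw [a2 hx, mul_zero, mul_zero]
  rw [e1, e2]
  exact h φ h1 h2 h3

theorem lo_int3 {p q r : X → ℝ} (hp : Integrable p) (hq : Integrable q) (hr : Integrable r) :
    (∫ x, p x) + (∫ x, q x) + ∫ x, r x = ∫ x, p x + q x + r x := by
  rw [← integral_add hp hq]
  exact (integral_add (hp.add hq) hr).symm

theorem lo_int_src (hS : MeasurableSet S) (hs : LI S s) {ζ : X → ℝ} (hζ : LT eX ζ)
    (h0 : ∀ᵐ x : X, x ∉ S → ζ x = 0) : Integrable fun x => s x * ζ x := by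
  simpa only [mul_one] using hs.integrable_mul hS aestronglyMeasurable_const (LocBdd.const 1) hζ h0

/-- Two-sided inequalities can be tested with functions of either sign: `ζ = ζ₊ - (-ζ)₊`. -/
theorem Sub.signed (hS : MeasurableSet S) (hf : LH eX f) (ha : LI S a) (hs : LI S s)
    (h : ∀ σ : ℝ, |σ| ≤ 1 → Sub eX S (fun x => σ * f x) a s) {ζ : X → ℝ} (hζ : LT eX ζ)
    (h0 : ∀ᵐ x : X, x ∉ S → ζ x = 0) :
    dir eX f ζ + ∫ x, a x * f x * ζ x ≤ ∫ x, s x * |ζ x| := by
  have p1 : LT eX fun x => max (ζ x) 0 :=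
    LT.of_supp hζ.1.posPart hζ (.of_forall fun x hx => by simp [hx])
  have p2 : LT eX fun x => max (-ζ x) 0 :=
    LT.of_supp hζ.1.neg.posPart hζ (.of_forall fun x hx => by simp [hx])
  have z1 : ∀ᵐ x : X, x ∉ S → max (ζ x) 0 = 0 := h0.mono fun x hx h => by simp [hx h]
  have z2 : ∀ᵐ x : X, x ∉ S → max (-ζ x) 0 = 0 := h0.mono fun x hx h => by simp [hx h]
  have a1 := h 1 (by simp) _ p1 (.of_forall fun x => le_max_right _ _) z1
  have a2 := h (-1) (by simp) _ p2 (.of_forall fun x => le_max_right _ _) z2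
  rw [hf.1.dir_const_mul_left] at a1 a2
  have e0 : ∀ t : ℝ, max t 0 + -1 * max (-t) 0 = t := fun t => by
    rcases le_total t 0 with h | h
    · rw [max_eq_right h, max_eq_left (neg_nonneg.2 h)]; ring
    · rw [max_eq_left h, max_eq_right (neg_nonpos.2 h)]; ring
  have e0' : ∀ t : ℝ, max t 0 + max (-t) 0 = |t| := fun t => by
    rcases le_total t 0 with h | h
    · rw [max_eq_right h, max_eq_left (neg_nonneg.2 h), abs_of_nonpos h, zero_add]
    · rw [max_eq_left h, max_eq_right (neg_nonpos.2 h), abs_of_nonneg h, add_zero]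
  have e1 : dir eX f ζ = dir eX f (fun x => max (ζ x) 0) + -1 * dir eX f fun x => max (-ζ x) 0 := by
    rw [dir_comm f fun x => max (-ζ x) 0, ← p2.1.1.dir_const_mul_left, dir_comm _ f,
      ← hf.1.dir_add_right p1 (p2.const_mul _)]
    simp only [e0]
  have i1 := ha.integrable_mul hS hf.aesm hf.2 p1 z1
  have i2 := ha.integrable_mul hS hf.aesm hf.2 p2 z2
  have e2 : ∫ x, a x * f x * ζ x = (∫ x, a x * (1 * f x) * max (ζ x) 0) +
      ∫ x, a x * (-1 * f x) * max (-ζ x) 0 := by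
    rw [← integral_add (by simpa only [one_mul] using i1)
      (by simpa only [neg_mul, one_mul, mul_neg] using i2.fun_neg)]
    refine integral_congr_ae (.of_forall fun x => ?_)
    linear_combination -(a x * f x) * e0 (ζ x)
  have e3 : ∫ x, s x * |ζ x| = (∫ x, s x * max (ζ x) 0) + ∫ x, s x * max (-ζ x) 0 := by
    rw [← integral_add (lo_int_src hS hs p1 z1) (lo_int_src hS hs p2 z2)]
    simp only [← mul_add, e0']
  linarith

theorem lo_dw (α : ℝ) (he : LH eX e) (hd : LH eX d) (hN : LH eX N) (hp : LocPos e)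
    (hdl : ∀ᵐ x : X, -e x / 10 ≤ d x) :
    DW (fun x => loL α (e x) (d x) (N x))
      (fun i x => loL' α (e x) (d x) (N x) (wd (eX i) e x) (wd (eX i) d x) (wd (eX i) N x)) ∧
    DW (fun x => loGe α (e x) (d x) (N x))
      (fun i x => loGe' α (e x) (d x) (N x) (wd (eX i) e x) (wd (eX i) d x) (wd (eX i) N x)) ∧
    DW (fun x => loGd α (e x) (d x) (N x))
      (fun i x => loGd' α (e x) (d x) (N x) (wd (eX i) e x) (wd (eX i) d x) (wd (eX i) N x)) := by
  have h0 := hp.ae_pos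
  have dρ := (he.dw.sq.add hd.dw.sq).add hN.dw.sq
  have dr := he.dw.norm2 hd.dw
  have pr : LocPos fun x => √(e x ^ 2 + d x ^ 2) := hp.mono (h0.mono fun x hx => lo_le_r hx)
  have pρ : LocPos fun x => e x ^ 2 + d x ^ 2 + N x ^ 2 := fun R => by
    obtain ⟨c, hc, h⟩ := hp R
    exact ⟨c ^ 2, by positivity, h.mono fun x hx hR => by
      nlinarith [hx hR, sq_nonneg (d x), sq_nonneg (N x)]⟩
  have pu : LocPos fun x => √(e x ^ 2 + d x ^ 2) + d x := fun R => by
    obtain ⟨c, hc, h⟩ := hp R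
    refine ⟨9 / 10 * c, by positivity, ?_⟩
    filter_upwards [h, h0, hdl] with x h1 h2 h3 hR
    linarith [lo_rd h2 h3, h1 hR]
  refine ⟨?_, ?_, ?_⟩
  · refine ((((he.dw.log hp).const_mul (1 + α)).add (dρ.log pρ)).sub
      (((dr.add hd.dw).log pu).const_mul (3 + α))).congr' ?_
    filter_upwards [h0, hdl] with x h1 h2 i using lo_dL h1 h2
  · refine ((he.dw.const_mul 2).add ((dρ.div he.dw hp).mul
      (((hd.dw.div dr pr).const_mul (3 + α)).sub (DW.const 2)))).congr' (.of_forall fun x i => ?_)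
    simp only [loGe', sub_zero, add_assoc]
  · exact (hd.dw.const_mul 2).sub ((dρ.div dr pr).const_mul (3 + α))

/-- Test the inequalities of `e, d, N` with `loGe ψ`, `loGd ψ`, `2 N ψ` and add; the terms with `a`
cancel (`lo_euler`); pointwise `ρ (∇ℓ·∇ψ - |∇ℓ|² ψ) ≤ Σ ∇x_i·∇(G_i ψ)` by `lo_Q`. -/
theorem lo_bar {α Λ : ℝ} (hS : MeasurableSet S) (he : LH eX e) (hd : LH eX d) (hN : LH eX N)
    (hR : LH eX R) (hp : LocPos e) (hdl : ∀ᵐ x : X, -e x / 10 ≤ d x) (hN0 : ∀ᵐ x : X, 0 ≤ N x)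
    (ha : LI S a) (hα : 0 ≤ α) (hα' : α ≤ 1 / 100) (hΛ : 0 ≤ Λ)
    (hc : ∀ᵐ x : X, x ∈ S → N x ^ 2 ≤ 7 / 20 * e x ^ 2 + α / 20 * d x ^ 2 ∧ 0 ≤ R x ∧
      R x ^ 2 = e x ^ 2 + d x ^ 2 + N x ^ 2)
    (se : ∀ σ : ℝ, |σ| ≤ 1 → Sub eX S (fun x => σ * e x) a fun x => Λ * e x)
    (sd : ∀ σ : ℝ, |σ| ≤ 1 → Sub eX S (fun x => σ * d x) a R) (sN : Sub eX S N a R) :
    LogSub S (fun x => R x ^ 2) (fun x => loL α (e x) (d x) (N x)) (8 * Λ + 8) := by
  intro ψ hψ h0 hz
  obtain ⟨dL, dGe, dGd⟩ := lo_dw α he hd hN hp hdl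
  have dGN := hN.dw.const_mul 2
  have li : ∀ {f : X → ℝ}, LH eX f → LI S f := fun hf R => (hf.1.1.integrableOn R).mono_set inter_subset_right
  have t1 := dGe.1.mul_LT hψ
  have t2 := dGd.1.mul_LT hψ
  have t3 := dGN.1.mul_LT hψ
  have z : ∀ G : X → ℝ, ∀ᵐ x : X, x ∉ S → G x * ψ x = 0 := fun G =>
    hz.mono fun x hx h => by rw [hx h, mul_zero]
  have a1 := Sub.signed hS he ha (li (he.const_mul Λ)) se t1 (z _)
  have a2 := Sub.signed hS hd ha (li hR) sd t2 (z _)
  have a3 := sN _ t3 (by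
    filter_upwards [h0, hN0] with x b1 b2 using mul_nonneg (mul_nonneg two_pos.le b2) b1) (z _)
  have i1 := ha.integrable_mul hS he.aesm he.2 t1 (z _)
  have i2 := ha.integrable_mul hS hd.aesm hd.2 t2 (z _)
  have i3 := ha.integrable_mul hS hN.aesm hN.2 t3 (z _)
  have e1 : (∫ x, a x * e x * (loGe α (e x) (d x) (N x) * ψ x)) +
      (∫ x, a x * d x * (loGd α (e x) (d x) (N x) * ψ x)) + ∫ x, a x * N x * (2 * N x * ψ x) = 0 := by
    rw [lo_int3 i1 i2 i3]
    refine integral_eq_zero_of_ae ?_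
    filter_upwards [hp.ae_pos] with x hx
    simp only [Pi.zero_apply]
    linear_combination a x * ψ x * lo_euler (α := α) (d := d x) (N := N x) hx
  have j1 := he.1.integrable_dot t1
  have j2 := hd.1.integrable_dot t2
  have j3 := hN.1.integrable_dot t3
  have e2 : ∫ x, R x ^ 2 * (dot eX (fun x => loL α (e x) (d x) (N x)) ψ x -
      dot eX (fun x => loL α (e x) (d x) (N x)) (fun x => loL α (e x) (d x) (N x)) x * ψ x) ≤
      dir eX e (fun x => loGe α (e x) (d x) (N x) * ψ x) +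
        dir eX d (fun x => loGd α (e x) (d x) (N x) * ψ x) + dir eX N fun x => 2 * N x * ψ x := by
    unfold dir
    rw [lo_int3 j1 j2 j3]
    refine integral_mono_ae (lo_int_log hR.sq.1 dL.1 hψ) ((j1.add j2).add j3) ?_
    filter_upwards [dL.dot hψ.1.dw, dL.dot dL, he.dw.dot (dGe.mul hψ.1.dw),
      hd.dw.dot (dGd.mul hψ.1.dw), hN.dw.dot (dGN.mul hψ.1.dw), hp.ae_pos, hdl, hc, h0, hz,
      lo_wd_zero hψ.1.1] with x b1 b2 b3 b4 b5 b6 b7 b8 b9 b10 b11
    rw [b1, b2, b3, b4, b5]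
    by_cases hx : x ∈ S
    · obtain ⟨c1, c2, c3⟩ := b8 hx
      rw [c3, Finset.sum_mul, ← Finset.sum_sub_distrib, Finset.mul_sum, ← Finset.sum_add_distrib,
        ← Finset.sum_add_distrib]
      refine Finset.sum_le_sum fun i _ => ?_
      have c4 := mul_nonneg (lo_Q (ξe := wd (eX i) e x) (ξd := wd (eX i) d x) (ξN := wd (eX i) N x)
        hα hα' b6 b7 c1) b9
      have c5 : (e x ^ 2 + d x ^ 2 + N x ^ 2) *
          loL' α (e x) (d x) (N x) (wd (eX i) e x) (wd (eX i) d x) (wd (eX i) N x) =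
          loGe α (e x) (d x) (N x) * wd (eX i) e x + loGd α (e x) (d x) (N x) * wd (eX i) d x +
            2 * N x * wd (eX i) N x := by
        unfold loL'
        exact mul_div_cancel₀ _ (by positivity)
      linear_combination c4 + wd (eX i) ψ x * c5
    · simp only [b10 hx, b11 (b10 hx), mul_zero, add_zero, Finset.sum_const_zero, sub_zero, le_refl]
  have k1 := lo_int_src hS (li (he.const_mul Λ)) (LT.of_supp (g := ψ) ⟨t1.1.1.abs.1, fun R => by
    simpa only [abs_abs] using t1.1.2 R⟩ hψ (.of_forall fun x hx => by simp [hx]))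
    (hz.mono fun x hx h => by simp [hx h])
  have k2 := lo_int_src hS (li hR) (LT.of_supp (g := ψ) ⟨t2.1.1.abs.1, fun R => by
    simpa only [abs_abs] using t2.1.2 R⟩ hψ (.of_forall fun x hx => by simp [hx]))
    (hz.mono fun x hx h => by simp [hx h])
  have k3 := lo_int_src hS (li hR) t3 (z _)
  have e3 : (∫ x, Λ * e x * |loGe α (e x) (d x) (N x) * ψ x|) +
      (∫ x, R x * |loGd α (e x) (d x) (N x) * ψ x|) + ∫ x, R x * (2 * N x * ψ x) ≤
      (8 * Λ + 8) * ∫ x, R x ^ 2 * ψ x := by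
    rw [lo_int3 k1 k2 k3, ← integral_const_mul]
    refine integral_mono_ae ((k1.add k2).add k3)
      ((hψ.integrable_lb hR.sq.1.aesm hR.sq.1.2).const_mul _) ?_
    filter_upwards [hp.ae_pos, hc, h0, hz, hN0] with x b1 b2 b3 b4 b5
    by_cases hx : x ∈ S
    · obtain ⟨c1, c2, c3⟩ := b2 hx
      have c4 := lo_Ge_le (d := d x) (N := N x) hα hα' b1
      have c5 := lo_Gd_le hα hα' b1 c1 c2 c3
      have c6 : R x * N x ≤ R x ^ 2 := by nlinarith [sq_nonneg (R x - N x), sq_nonneg (e x), sq_nonneg (d x)]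
      rw [← c3] at c4
      rw [abs_mul, abs_mul, abs_of_nonneg b3]
      nlinarith [mul_le_mul_of_nonneg_right (mul_le_mul_of_nonneg_left c4 hΛ) b3,
        mul_le_mul_of_nonneg_right c5 b3, mul_le_mul_of_nonneg_right c6 b3]
    · simp [b4 hx]
  linarith

end Crest.Agent.R335
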