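/-
R335/LO/DG: the De Giorgi step.  Skeleton by helper14.
-/
import Crest.Agent.R335.LO.Defs

set_option autoImplicit false
set_option linter.unusedSectionVars false
set_option linter.unusedVariables false
set_option linter.unusedSimpArgs false

noncomputable section

namespace Crest.Agent.R335

open MeasureTheory Set Filter Topology Metric
open scoped ENNReal

theorem Tst.lo_sq {χ : X → ℝ} (h : Tst χ) : LT eX fun x => χ x ^ 2 :=
  LT.of_supp (LT.of_tst h).1.sq.1 (.of_tst h) (.of_forall fun x hx => by simp [hx])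

/-- `2 s χ ∇y·∇χ ≥ -χ² |∇y|² / 2 - 2 s² |∇χ|²`. -/
theorem lo_young (p q : Fin 3 → ℝ) (s t : ℝ) :
    t ^ 2 * (∑ i, p i * p i) / 2 - 2 * s ^ 2 * ∑ i, q i ^ 2 ≤
      t ^ 2 * (∑ i, p i * p i) + 2 * s * t * ∑ i, p i * q i := by
  simp only [Fin.sum_univ_three]
  nlinarith [sq_nonneg (t * p 0 + 2 * s * q 0), sq_nonneg (t * p 1 + 2 * s * q 1),
    sq_nonneg (t * p 2 + 2 * s * q 2)]

theorem lo_absorb {q w u r : X → ℝ} {C : ℝ} (hq : Integrable q) (hw : Integrable w)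
    (hu : Integrable u) (hr : Integrable r) (h : ∫ x, q x ≤ C * ∫ x, w x)
    (hle : ∀ᵐ x : X, u x ≤ q x - C * w x + r x) : ∫ x, u x ≤ ∫ x, r x := by
  have h1 : Integrable fun x => q x - C * w x := hq.sub (hw.const_mul C)
  have h2 := integral_mono_ae hu (h1.add hr) hle
  have h3 : ∫ x, q x - C * w x + r x = (∫ x, q x) - C * (∫ x, w x) + ∫ x, r x := by
    rw [integral_add h1 hr, integral_sub hq (hw.const_mul C), integral_const_mul]
  have h4 : ∫ x, u x ≤ ∫ x, q x - C * w x + r x := h2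
  linarith

/-- Test with `φ = (1 - e^{-y}) χ²`, `χ = 1` on the ball of radius 6, `0` off the ball of radius 7. -/
theorem lo_grad (κ C : ℝ) : ∃ B : ℝ, ∀ (y W : X → ℝ) (x0 : X) (A : ℝ), 0 < A → LH eX y → LH eX W →
    (∀ᵐ x : X, 0 ≤ y x) → (∀ᵐ x : X, x ∈ ball x0 7 → 0 < y x → A ≤ W x ∧ W x ≤ κ * A) →
    QSub {x | x ∈ ball x0 7 ∧ 0 < y x} W y C → ∫ x in ball x0 6, dot eX y y x ≤ B := by
  obtain ⟨C0, hC0, hcut⟩ := exists_radial_cutoff
  refine ⟨2 * (|κ| * (|C| + 2 * C0 ^ 2) * (volume (closedBall (0 : X) 7)).toReal),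
    fun y W x0 A hA hy hW h0 hb hq => ?_⟩
  obtain ⟨χ, c1, c2, c3, c4, c5, c6, -⟩ := hcut x0 6 1 (by norm_num) one_pos
  have hχ : Tst χ := ⟨c1.of_le one_le_two, c2⟩
  have dχ := DW.of_contDiff hχ.1
  have dE := (DW.const 1).sub hy.dw.neg.exp
  have dφ := dE.mul dχ.sq
  have tφ := dE.1.mul_LT hχ.lo_sq
  have hE : ∀ t : ℝ, 0 ≤ t → 0 ≤ 1 - Real.exp (-t) := fun t ht =>
    sub_nonneg.2 (Real.exp_le_one_iff.2 (neg_nonpos.2 ht))
  have hout : ∀ x, x ∉ ball x0 7 → χ x = 0 := fun x hx =>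
    c5 x (by rw [mem_ball_iff_norm, not_lt] at hx; linarith)
  have a1 := hq _ tφ (h0.mono fun x hx => mul_nonneg (hE _ hx) (sq_nonneg _)) (by
    filter_upwards [h0] with x hx h1
    by_cases h2 : x ∈ ball x0 7
    · have : y x = 0 := le_antisymm (not_lt.1 fun h3 => h1 ⟨h2, h3⟩) hx
      simp [this]
    · simp [hout x h2])
  have i1 : Integrable fun x => dot eX y y x * χ x ^ 2 := hy.1.integrable_dot_mul hy.1 hχ.lo_sq
  have i2 : Integrable ((closedBall x0 7).indicator fun _ : X => |κ| * A * (|C| + 2 * C0 ^ 2)) :=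
    (integrable_indicator_iff measurableSet_closedBall).2
      (integrableOn_const (isCompact_closedBall x0 7).measure_lt_top.ne)
  have i3 := tφ.integrable_lb hW.aesm hW.2
  have a2 : ∫ x, A / 2 * (dot eX y y x * χ x ^ 2) ≤
      ∫ x, (closedBall x0 7).indicator (fun _ : X => |κ| * A * (|C| + 2 * C0 ^ 2)) x := by
    refine lo_absorb (lo_int_q hW hy tφ) i3 (i1.const_mul _) i2 a1 ?_
    filter_upwards [h0, hb, hy.dw.dot dφ, lo_wd_zero hy.1] with x b1 b2 b3 b4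
    have p0 : 0 ≤ (closedBall x0 7).indicator (fun _ : X => |κ| * A * (|C| + 2 * C0 ^ 2)) x :=
      indicator_nonneg (fun _ _ => by positivity) x
    rw [b3]
    by_cases h2 : x ∈ ball x0 7
    swap
    · simpa [hout x h2] using p0
    rcases b1.eq_or_lt with h3 | h3
    · simpa [dot, b4 h3.symm, ← h3] using p0
    obtain ⟨d1, d2⟩ := b2 h2 h3
    rw [indicator_of_mem (ball_subset_closedBall h2)]
    have d3 := lo_young (fun i => wd (eX i) y x) (fun i => fderiv ℝ χ x (eX i))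
      (1 - Real.exp (-y x)) (χ x)
    rw [sum_fderiv_sq] at d3
    have d4 : ‖fderiv ℝ χ x‖ ^ 2 ≤ C0 ^ 2 :=
      pow_le_pow_left₀ (norm_nonneg _) (by simpa using c6 x) 2
    have d5 := hE _ b1
    have d6 : 1 - Real.exp (-y x) ≤ 1 := by linarith [Real.exp_pos (-y x)]
    have d7 : (1 - Real.exp (-y x)) ^ 2 * ‖fderiv ℝ χ x‖ ^ 2 ≤ C0 ^ 2 :=
      (mul_le_of_le_one_left (sq_nonneg _) (pow_le_one₀ d5 d6)).trans d4
    have d8 : C * ((1 - Real.exp (-y x)) * χ x ^ 2) ≤ |C| :=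
      (mul_le_mul_of_nonneg_right (le_abs_self C) (by positivity)).trans
        (mul_le_of_le_one_right (abs_nonneg _) (mul_le_one₀ d6 (sq_nonneg _)
          (pow_le_one₀ (c3 x).1 (c3 x).2)))
    have d9 : W x ≤ |κ| * A := d2.trans (mul_le_mul_of_nonneg_right (le_abs_self κ) hA.le)
    have d10 : 0 ≤ χ x ^ 2 * ∑ i, wd (eX i) y x * wd (eX i) y x :=
      mul_nonneg (sq_nonneg _) (dot_self_nonneg y x)
    have d11 : ∑ i, wd (eX i) y x * ((0 - Real.exp (-y x) * -wd (eX i) y x) * χ x ^ 2 +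
        (1 - Real.exp (-y x)) * (2 * χ x * fderiv ℝ χ x (eX i))) +
        dot eX y y x * ((1 - Real.exp (-y x)) * χ x ^ 2) =
        χ x ^ 2 * (∑ i, wd (eX i) y x * wd (eX i) y x) +
          2 * (1 - Real.exp (-y x)) * χ x * ∑ i, wd (eX i) y x * fderiv ℝ χ x (eX i) := by
      simp only [dot, Fin.sum_univ_three]
      ring
    rw [d11]
    have d12 : 0 ≤ W x := hA.le.trans d1
    have d13 := mul_le_mul_of_nonneg_left d3 d12
    have d14 := mul_le_mul_of_nonneg_left d7 d12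
    have d15 := mul_le_mul_of_nonneg_left d8 d12
    have d16 := mul_le_mul_of_nonneg_right d1 d10
    have d17 := mul_le_mul_of_nonneg_right d9 (by positivity : 0 ≤ |C| + 2 * C0 ^ 2)
    unfold dot
    linarith
  rw [integral_const_mul, integral_indicator measurableSet_closedBall, setIntegral_const, smul_eq_mul, measureReal_def,
    Measure.addHaar_closedBall_center] at a2
  have a3 : ∫ x in ball x0 6, dot eX y y x ≤ ∫ x, dot eX y y x * χ x ^ 2 := by
    refine le_trans (le_of_eq (setIntegral_congr_fun measurableSet_ball fun x hx => ?_))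
      (setIntegral_le_integral i1 (.of_forall fun x => mul_nonneg (dot_self_nonneg y x) (sq_nonneg _)))
    simp only [c4 x (mem_ball_iff_norm.1 hx).le, one_pow, mul_one]
  refine a3.trans (le_of_mul_le_mul_left ?_ (half_pos hA))
  linarith

/-- Test with `φ = (y - k)₊ χ²`. -/
theorem lo_cacc (κ C : ℝ) : ∃ Λ : ℝ, ∀ (y W : X → ℝ) (x0 : X) (A : ℝ), 0 < A → LH eX y → LH eX W →
    (∀ᵐ x : X, 0 ≤ y x) → (∀ᵐ x : X, x ∈ ball x0 7 → 0 < y x → A ≤ W x ∧ W x ≤ κ * A) →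
    QSub {x | x ∈ ball x0 7 ∧ 0 < y x} W y C →
    ∀ (k : ℝ) (χ : X → ℝ), 0 ≤ k → Tst χ → (∀ x, 0 ≤ χ x ∧ χ x ≤ 1) →
      (∀ x, 6 ≤ ‖x - x0‖ → χ x = 0) →
      ∫ x, χ x ^ 2 * dot eX (fun z => max (y z - k) 0) (fun z => max (y z - k) 0) x ≤
        Λ * (∫ x, max (y x - k) 0 ^ 2 * ‖fderiv ℝ χ x‖ ^ 2) +
          Λ * ∫ x, max (y x - k) 0 * χ x ^ 2 := by
  refine ⟨2 * (|κ| * (|C| + 2)), fun y W x0 A hA hy hW h0 hb hq k χ hk hχ c3 c5 => ?_⟩
  have dχ := DW.of_contDiff hχ.1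
  have dE := (hy.dw.sub (DW.const k)).posPart
  have dφ := dE.mul dχ.sq
  have tφ := dE.1.mul_LT hχ.lo_sq
  have hout : ∀ x, x ∉ ball x0 7 → χ x = 0 := fun x hx =>
    c5 x (by rw [mem_ball_iff_norm, not_lt] at hx; linarith)
  have a1 := hq _ tφ (.of_forall fun x => mul_nonneg (le_max_right _ _) (sq_nonneg _)) (by
    refine .of_forall fun x h1 => ?_
    by_cases h2 : x ∈ ball x0 7
    · have : y x - k ≤ 0 := by linarith [not_lt.1 fun h3 => h1 ⟨h2, h3⟩]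
      simp [max_eq_right this]
    · simp [hout x h2])
  have i1 := dE.1.1.integrable_dot_mul dE.1.1 hχ.lo_sq
  have i2 : Integrable fun x => max (y x - k) 0 ^ 2 * ‖fderiv ℝ χ x‖ ^ 2 := by
    simp only [← sum_fderiv_sq, Finset.mul_sum, ← mul_pow]
    refine integrable_finsetSum _ fun i _ => ?_
    obtain ⟨R, hR⟩ := (LT.of_tst (b := eX) hχ).wd_zero
    refine MemLp.integrable_sq (LocL2.memLp_of_supp (R := R) ((LocL2.of_continuous (hχ.dcont _)).mul_locBdd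
      dE.1.aesm dE.1.2) ?_)
    filter_upwards [hR, dχ.2] with x b1 b2 b3
    rw [← b2 i, (b1 b3).2 i, mul_zero]
  have i3 := tφ.integrable_lb hW.aesm hW.2
  have i4 := hχ.lo_sq.integrable_lb dE.1.aesm dE.1.2
  have a2 : ∫ x, A / 2 * (dot eX (fun z => max (y z - k) 0) (fun z => max (y z - k) 0) x * χ x ^ 2) ≤
      ∫ x, |κ| * A * (|C| + 2) * (max (y x - k) 0 ^ 2 * ‖fderiv ℝ χ x‖ ^ 2) +
        |κ| * A * (|C| + 2) * (max (y x - k) 0 * χ x ^ 2) := by
    refine lo_absorb (lo_int_q hW hy tφ) i3 (i1.const_mul _)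
      ((i2.const_mul _).add (i4.const_mul _)) a1 ?_
    filter_upwards [hb, hy.dw.dot dφ, dE.dot dE] with x b2 b3 b4
    rw [b3, b4]
    rcases le_or_gt (y x - k) 0 with h3 | h3
    · simp [max_eq_right h3, not_lt.2 h3]
    by_cases h2 : x ∈ ball x0 7
    swap
    · simp only [hout x h2]
      simp
      positivity
    obtain ⟨d1, d2⟩ := b2 h2 (by linarith)
    simp only [max_eq_left h3.le, if_pos h3, sub_zero]
    have d3 := lo_young (fun i => wd (eX i) y x) (fun i => fderiv ℝ χ x (eX i)) (y x - k) (χ x)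
    rw [sum_fderiv_sq] at d3
    have d9 : W x ≤ |κ| * A := d2.trans (mul_le_mul_of_nonneg_right (le_abs_self κ) hA.le)
    have d10 : 0 ≤ χ x ^ 2 * ∑ i, wd (eX i) y x * wd (eX i) y x :=
      mul_nonneg (sq_nonneg _) (dot_self_nonneg y x)
    have d11 : ∑ i, wd (eX i) y x * (wd (eX i) y x * χ x ^ 2 +
        (y x - k) * (2 * χ x * fderiv ℝ χ x (eX i))) =
        χ x ^ 2 * (∑ i, wd (eX i) y x * wd (eX i) y x) +
          2 * (y x - k) * χ x * ∑ i, wd (eX i) y x * fderiv ℝ χ x (eX i) := by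
      simp only [Fin.sum_univ_three]
      ring
    rw [d11]
    have d12 : 0 ≤ W x := hA.le.trans d1
    have d13 := mul_le_mul_of_nonneg_left d3 d12
    have d16 := mul_le_mul_of_nonneg_right d1 d10
    have p1 : 0 ≤ (y x - k) ^ 2 * ‖fderiv ℝ χ x‖ ^ 2 := by positivity
    have p2 : 0 ≤ (y x - k) * χ x ^ 2 := by positivity
    have d14 := mul_nonneg d12 (mul_nonneg (dot_self_nonneg (b := eX) y x) p2)
    have d15 := mul_le_mul_of_nonneg_right d9 p1
    have d17 := mul_le_mul_of_nonneg_right d9 (mul_nonneg (abs_nonneg C) p2)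
    have d18 := mul_le_mul_of_nonneg_right (le_abs_self C) (mul_nonneg d12 p2)
    have p3 : 0 ≤ |κ| * A * |C| * ((y x - k) ^ 2 * ‖fderiv ℝ χ x‖ ^ 2) := by positivity
    have p4 : 0 ≤ |κ| * A * ((y x - k) * χ x ^ 2) := by positivity
    linarith
  rw [integral_const_mul, integral_add (i2.const_mul _) (i4.const_mul _), integral_const_mul,
    integral_const_mul] at a2
  simp only [mul_comm (χ _ ^ 2) (dot _ _ _ _)]
  refine le_of_mul_le_mul_left ?_ (half_pos hA)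
  linarith

/-- `lo_grad`, `poin_zero`, `lo_cacc`, `degiorgi`. -/
theorem lo_dg (κ C θ : ℝ) (hθ : 0 < θ) : ∃ B : ℝ, ∀ (y W : X → ℝ) (x0 : X) (A : ℝ), 0 < A →
    LH eX y → LH eX W → (∀ᵐ x : X, 0 ≤ y x) →
    (∀ᵐ x : X, x ∈ ball x0 7 → 0 < y x → A ≤ W x ∧ W x ≤ κ * A) →
    QSub {x | x ∈ ball x0 7 ∧ 0 < y x} W y C →
    ENNReal.ofReal θ ≤ volume {x | x ∈ ball x0 6 ∧ y x = 0} →
    ∀ᵐ x : X, x ∈ ball x0 4 → y x ≤ B := by
  obtain ⟨B1, h1⟩ := lo_grad κ C
  obtain ⟨Λ, h2⟩ := lo_cacc κ C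
  obtain ⟨C1, hC1, h3⟩ := degiorgi Λ
  obtain ⟨C2, hC2, h4⟩ := poin_zero
  refine ⟨C1 * (1 + C2 / (θ / 6 ^ 3) * 6 ^ 2 * B1), fun y W x0 A hA hy hW h0 hb hq hz => ?_⟩
  have a1 := h1 y W x0 A hA hy hW h0 hb hq
  have a2 := h4 y x0 6 (θ / 6 ^ 3) hy.1 (by norm_num) (by positivity)
    (by rwa [div_mul_cancel₀ _ (by norm_num)])
  filter_upwards [h3 y x0 hy.1 h0 (h2 y W x0 A hA hy hW h0 hb hq)] with x hx hm
  refine (hx hm).trans (mul_le_mul_of_nonneg_left ?_ hC1.le)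
  have a3 : 0 ≤ C2 / (θ / 6 ^ 3) * 6 ^ 2 := by positivity
  linarith [mul_le_mul_of_nonneg_left a1 a3]

end Crest.Agent.R335
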