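/-
R335/LO/Sup: `P / R + τ` is a supersolution; the quotient.  Skeleton by helper14.
-/
import Crest.Agent.R335.LO.Defs

set_option autoImplicit false
set_option linter.unusedSectionVars false
set_option linter.unusedVariables false
set_option linter.unusedSimpArgs false

noncomputable section

namespace Crest.Agent.R335

open MeasureTheory Set Filter Topology Metric
open scoped ENNReal

/-- Test `Cert.elH` with `φ = b / R * (ψ / w)`, `w = P / R + τ`; by `Cert.grad`,
`∇w = b J / R³`, `∇(b / R) = -P J / R³`. -/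
theorem lo_sup {δ τ M : ℝ} {P b R : X → ℝ} (h : Cert δ P b R) (hδ : 0 ≤ δ) (hR : H1 eX R)
    (hp : LocPos R) (hM : ∀ᵐ x : X, |R x| ≤ M) (hτ : 0 < τ) :
    LH eX (fun x => Real.log (P x / R x + τ)) ∧
      LogSup Hs (fun x => R x ^ 2) (fun x => Real.log (P x / R x + τ)) (2 * δ) := by
  obtain ⟨hP, hb, -, hJ⟩ := h.lh hM
  have hRl := hR.lh hM
  have h0 := hp.ae_pos
  have hg := ae_all_iff.2 fun i => h.grad hR hp i
  have dw : DW (fun x => P x / R x + τ) fun i x => b x * J P b i x / R x ^ 3 := by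
    refine ((hP.dw.div hRl.dw hp).add (DW.const τ)).congr' ?_
    filter_upwards [h0, hg] with x h1 h2 i
    rw [(h2 i).1]
    field_simp
    ring
  have db : DW (fun x => b x / R x) fun i x => -(P x * J P b i x) / R x ^ 3 := by
    refine (hb.dw.div hRl.dw hp).congr' ?_
    filter_upwards [h0, hg] with x h1 h2 i
    rw [(h2 i).2]
    field_simp
    ring
  have hw0 : ∀ᵐ x : X, τ ≤ P x / R x + τ :=
    h0.mono fun x hx => le_add_of_nonneg_left (div_nonneg (h.P_nn x) hx.le)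
  have pw : LocPos fun x => P x / R x + τ := fun _ => ⟨τ, hτ, hw0.mono fun x hx _ => hx⟩
  have dl := dw.log pw
  refine ⟨dl.1, fun ψ hψ a0 az => ?_⟩
  have dφ := db.mul (hψ.1.dw.div dw pw)
  have tφ : LT eX fun x => b x / R x * (ψ x / (P x / R x + τ)) :=
    LT.of_supp dφ.1 hψ (.of_forall fun x hx => by simp [hx])
  have e1 := h.elH tφ (az.mono fun x hx h1 => by simp [hx h1])
  have i1 : Integrable fun x => ∑ i, J P b i x *
      wd (eX i) (fun x => b x / R x * (ψ x / (P x / R x + τ))) x :=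
    integrable_finsetSum _ fun i _ => (hJ i).integrable_mul (tφ.h1.2 i).2
  have e2 : ∫ x, ∑ i, J P b i x * wd (eX i) (fun x => b x / R x * (ψ x / (P x / R x + τ))) x ≤
      ∫ x, R x ^ 2 * (dot eX (fun x => Real.log (P x / R x + τ)) ψ x -
        dot eX (fun x => Real.log (P x / R x + τ)) (fun x => Real.log (P x / R x + τ)) x * ψ x) := by
    refine integral_mono_ae i1 (lo_int_log hRl.sq.1 dl.1 hψ) ?_
    filter_upwards [dφ.2, dl.dot hψ.1.dw, dl.dot dl, h0, hw0, a0] with x b1 b2 b3 b4 b5 b6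
    rw [b2, b3, Finset.sum_mul, ← Finset.sum_sub_distrib, Finset.mul_sum]
    refine Finset.sum_le_sum fun i _ => ?_
    rw [b1 i]
    have b7 : 0 < P x / R x + τ := hτ.trans_le b5
    have b8 := h.P_nn x
    generalize P x / R x + τ = w at b7
    have b9 : 0 ≤ P x * J P b i x ^ 2 * ψ x / (R x ^ 3 * w) := by positivity
    refine le_of_sub_nonneg (b9.trans_eq ?_)
    field_simp
    ring
  have e3 : ∫ x, P x * b x * (b x / R x * (ψ x / (P x / R x + τ))) ≤ ∫ x, R x ^ 2 * ψ x := by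
    refine integral_mono_ae (tφ.integrable_mul hP.1.1 hb.1.1)
      (hψ.integrable_lb hRl.sq.1.aesm hRl.sq.1.2) ?_
    filter_upwards [h0, hw0, a0, h.sq] with x b4 b5 b6 b7
    have b8 : 0 < P x / R x + τ := hτ.trans_le b5
    have b9 : P x / R x / (P x / R x + τ) ≤ 1 := (div_le_one b8).2 (by linarith)
    have b10 : P x * b x * (b x / R x * (ψ x / (P x / R x + τ))) =
        P x / R x / (P x / R x + τ) * (b x ^ 2 * ψ x) := by
      generalize P x / R x + τ = w at b8
      field_simp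
    rw [b10]
    refine (mul_le_of_le_one_left (by positivity) b9).trans (mul_le_mul_of_nonneg_right ?_ b6)
    nlinarith [sq_nonneg (P x)]
  nlinarith [mul_le_mul_of_nonneg_left e3 hδ]

theorem LogSup.mono {S S' : Set X} {ρ ℓ : X → ℝ} {C : ℝ} (h : LogSup S ρ ℓ C) (hS : S' ⊆ S) :
    LogSup S' ρ ℓ C :=
  fun ψ h1 h2 h3 => h ψ h1 h2 (h3.mono fun x hx h4 => hx fun h5 => h4 (hS h5))

/-- Test both inequalities with `e^{2 ℓ} φ`. -/
theorem lo_comb {S : Set X} {ρ ℓ l : X → ℝ} {C C' : ℝ} (hρ : LH eX ρ) (hℓ : LH eX ℓ) (hl : LH eX l)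
    (h1 : LogSub S ρ ℓ C) (h2 : LogSup S ρ l C') :
    QSub S (fun x => ρ x * Real.exp (2 * ℓ x)) (fun x => ℓ x - l x) (C + C') := by
  intro φ hφ a0 az
  have dE := (hℓ.dw.const_mul 2).exp
  have dψ := dE.mul hφ.1.dw
  have tψ := dE.1.mul_LT hφ
  have p0 : ∀ᵐ x : X, 0 ≤ Real.exp (2 * ℓ x) * φ x :=
    a0.mono fun x hx => mul_nonneg (Real.exp_pos _).le hx
  have pz : ∀ᵐ x : X, x ∉ S → Real.exp (2 * ℓ x) * φ x = 0 :=
    az.mono fun x hx h => by rw [hx h, mul_zero]
  have b1 := h1 _ tψ p0 pz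
  have b2 := h2 _ tψ p0 pz
  have dv := hℓ.dw.sub hl.dw
  have e1 : ∫ x, ρ x * Real.exp (2 * ℓ x) * (dot eX (fun x => ℓ x - l x) φ x +
      dot eX (fun x => ℓ x - l x) (fun x => ℓ x - l x) x * φ x) =
      (∫ x, ρ x * (dot eX ℓ (fun x => Real.exp (2 * ℓ x) * φ x) x -
        dot eX ℓ ℓ x * (Real.exp (2 * ℓ x) * φ x))) -
      ∫ x, ρ x * (dot eX l (fun x => Real.exp (2 * ℓ x) * φ x) x -
        dot eX l l x * (Real.exp (2 * ℓ x) * φ x)) := by
    rw [← integral_sub (lo_int_log hρ hℓ tψ) (lo_int_log hρ hl tψ)]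
    refine integral_congr_ae ?_
    filter_upwards [dv.dot hφ.1.dw, dv.dot dv, hℓ.dw.dot dψ, hl.dw.dot dψ] with x c1 c2 c3 c4
    rw [c1, c2, c3, c4]
    simp only [dot, Fin.sum_univ_three]
    ring
  simp only [← mul_assoc] at b1 b2 e1
  simp only [← mul_assoc]
  linarith

/-- `QSub` only depends on the values in `S`. -/
theorem QSub.congr_on {S S' : Set X} {W v y : X → ℝ} {C k : ℝ} (h : QSub S W v C) (hS : S' ⊆ S)
    (hv : LH eX v) (hy : LH eX y) (he : ∀ᵐ x : X, x ∈ S' → y x = v x - k) : QSub S' W y C := by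
  intro φ hφ a0 az
  have dv := hv.dw.sub (DW.const k)
  refine le_trans (le_of_eq (integral_congr_ae ?_))
    (h φ hφ a0 (az.mono fun x hx h1 => hx fun h2 => h1 (hS h2)))
  filter_upwards [he, az, lo_wd_eq hy.1 dv.1.1, dv.2, lo_wd_zero hφ.1.1] with x b1 b2 b3 b4 b5
  by_cases hx : x ∈ S'
  · simp only [dot, b3 (b1 hx), b4, sub_zero]
  · simp only [dot, b2 hx, b5 (b2 hx), mul_zero]

end Crest.Agent.R335
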