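/-
R335/LO/Ball: the estimate on one ball.  Skeleton by helper14.
-/
import Crest.Agent.R335.LO.Bar
import Crest.Agent.R335.LO.Sup
import Crest.Agent.R335.LO.DG

set_option autoImplicit false
set_option linter.unusedSectionVars false
set_option linter.unusedVariables false
set_option linter.unusedSimpArgs false

noncomputable section

namespace Crest.Agent.R335

open MeasureTheory Set Filter Topology Metric
open scoped ENNReal

theorem QSub.weaken {S : Set X} {W v : X → ℝ} {C C' : ℝ} (h : QSub S W v C) (hW : ∀ x, 0 ≤ W x)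
    (hC : C ≤ C') : QSub S W v C' := fun φ h1 h2 h3 =>
  (h φ h1 h2 h3).trans (mul_le_mul_of_nonneg_right hC
    (integral_nonneg_of_ae (h2.mono fun x hx => mul_nonneg (hW x) hx)))

section pointwise
variable {ℓ e R P τ : ℝ}

theorem lo_v_le (h : |ℓ - (Real.log e - Real.log R)| ≤ 4) (he : 0 < e) (hR : 0 < R) (hτ : 0 < τ)
    (hP : e ≤ 2 * P) : ℓ - Real.log (P / R + τ) ≤ 5 := by
  have l2 : Real.log 2 ≤ 1 := by linarith [Real.log_le_sub_one_of_pos two_pos]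
  have h1 : Real.log (e / 2 / R) ≤ Real.log (P / R + τ) := Real.log_le_log (by positivity) (by
    linarith [div_le_div_of_nonneg_right (by linarith : e / 2 ≤ P) hR.le])
  rw [Real.log_div (by positivity) hR.ne', Real.log_div he.ne' two_ne_zero] at h1
  linarith [(abs_le.1 h).2]

theorem lo_W_bd (h : |ℓ - (Real.log e - Real.log R)| ≤ 4) (he : 0 < e) (hR : 0 < R) :
    Real.exp (-8) * e ^ 2 ≤ R ^ 2 * Real.exp (2 * ℓ) ∧ R ^ 2 * Real.exp (2 * ℓ) ≤ Real.exp 8 * e ^ 2 := by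
  have h1 : ∀ t : ℝ, 0 < t → t ^ 2 = Real.exp (2 * Real.log t) := fun t ht => by
    rw [two_mul, Real.exp_add, Real.exp_log ht, sq]
  rw [h1 e he, h1 R hR, ← Real.exp_add, ← Real.exp_add, ← Real.exp_add]
  obtain ⟨h2, h3⟩ := abs_le.1 h
  exact ⟨Real.exp_le_exp.2 (by linarith), Real.exp_le_exp.2 (by linarith)⟩

theorem lo_e_le {K : ℝ} (h : |ℓ - (Real.log e - Real.log R)| ≤ 4) (he : 0 < e) (hR : 0 < R)
    (hτ : 0 < τ) (hP : 0 ≤ P) (hK : ℓ - Real.log (P / R + τ) ≤ K) :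
    e ≤ Real.exp (K + 4) * (P + τ * R) := by
  have hw : 0 < P / R + τ := by positivity
  have h1 : P + τ * R = Real.exp (Real.log R + Real.log (P / R + τ)) := by
    rw [Real.exp_add, Real.exp_log hR, Real.exp_log hw]
    field_simp
  rw [h1, ← Real.exp_add, ← Real.exp_log he]
  exact Real.exp_le_exp.2 (by linarith [(abs_le.1 h).1])

end pointwise

theorem Chan.lo_lh {c C1 D l eg eu M η m2 de : ℝ} {g u : X → ℝ} {f : Fns}
    (h : Chan c C1 D l g u eg eu M η m2 de f) : (∀ᵐ x : X, |f.R x| ≤ M) ∧ LH eX f.R ∧ LH eX f.e ∧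
      LH eX f.d ∧ LH eX f.N ∧ ∀ᵐ x : X, f.e x ≤ f.R x := by
  have hR : ∀ᵐ x : X, |f.R x| ≤ M := h.bd.mono fun x hx => by
    rw [abs_of_nonneg (h.nn x).1]
    refine hx.trans (mul_le_of_le_one_right (by linarith [h.M_ge]) (Real.exp_le_one_iff.2 ?_))
    nlinarith [norm_nonneg x]
  have hb : ∀ᵐ x : X, |f.e x| ≤ |f.R x| ∧ |f.d x| ≤ |f.R x| ∧ |f.N x| ≤ |f.R x| :=
    h.pyth.mono fun x hx => by
      simp only [← sq_le_sq]
      refine ⟨?_, ?_, ?_⟩ <;>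
        nlinarith [hx.2.2.2, sq_nonneg (f.e x), sq_nonneg (f.d x), sq_nonneg (f.N x)]
  have he : H1 eX f.e := ((((h.he1.const_mul 2).add h.he2).add h.he3).const_mul (√6)⁻¹).congr
    (.of_forall fun x => by simp only [Fns.e, div_eq_inv_mul])
  refine ⟨hR, h.hR.lh hR, he.lh (M := M) ?_, h.hd.lh (M := M) ?_, h.hN.lh (M := M) ?_, ?_⟩
  · filter_upwards [hR, hb] with x h1 h2 using h2.1.trans h1
  · filter_upwards [hR, hb] with x h1 h2 using h2.2.1.trans h1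
  · filter_upwards [hR, hb] with x h1 h2 using h2.2.2.trans h1
  · filter_upwards [hb] with x h2
    exact (le_abs_self _).trans (h2.1.trans (abs_of_nonneg (h.nn x).1).le)

/-- With `d̃ = max d (-e/10)`, `ℓ = loL α e d̃ N`, `v = ℓ - log (P / R + τ)`,
`y = 1_{Hs} χ0 (v - 5)₊` (`χ0 = 1` on the ball of radius 7, `0` off the ball of radius 8);
`y ≤ C |b|` gives `Strip`; `lo_dg` with `W = R² e^{2ℓ} ≍ e² ≍ m²`. -/
theorem lo_ball_tau (Λ θ : ℝ) (hθ : 0 < θ) : ∃ Λ' : ℝ, 1 ≤ Λ' ∧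
    ∀ c C1 C2 K R0 ϱ D l g u eg eu M η m2 de f δ P b x0 (τ : ℝ),
    Chan c C1 D l g u eg eu M η m2 de f → Prof Λ C2 K R0 ϱ D l g (eu - eg) M m2 f →
    Cert δ P b f.R → 0 ≤ δ → δ ≤ 1 → BC Λ f x0 → ball x0 8 ⊆ Sig (5 * R0) 8 →
    ENNReal.ofReal θ ≤ volume {x : X | x ∈ ball x0 6 ∧ (x 2 ≤ 0 ∨ f.e x ≤ 2 * P x)} → 0 < τ →
    ∀ᵐ x : X, x ∈ ball x0 4 → 0 < x 2 → f.e x ≤ Λ' * (P x + τ * f.R x) := by
  obtain ⟨B, hB⟩ := lo_dg (Real.exp 16 * Λ ^ 2) (8 * Λ + 8 + 2) θ hθ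
  obtain ⟨C0, -, hcut⟩ := exists_radial_cutoff
  refine ⟨Real.exp (|B| + 5 + 4), Real.one_le_exp (by positivity),
    fun c C1 C2 K R0 ϱ D l g u eg eu M η m2 de f δ P b x0 τ hC hP hc hδ hδ1 hbc hsub hz hτ => ?_⟩
  obtain ⟨α, L, m, hα, hα', hL, hαL, hm, hbc⟩ := hbc
  obtain ⟨χ, c1, c2, c3, c4, c5, -⟩ := hcut x0 7 1 (by norm_num) one_pos
  obtain ⟨hM, hR, he, hd, hN, heR⟩ := hC.lo_lh
  have hΛ : 0 ≤ Λ := by linarith [hP.Λ_ge]
  have pR : LocPos f.R := hP.pos.mono heR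
  set d' : X → ℝ := fun x => max (f.d x) (-f.e x / 10) with hd'
  have hd1 : LH eX d' := hd.max ((he.const_mul (-1 / 10)).congr (.of_forall fun x => by ring_nf))
  have hd2 : ∀ᵐ x : X, -f.e x / 10 ≤ d' x := .of_forall fun x => le_max_right _ _
  have hd3 : ∀ᵐ x : X, 0 < x 2 → d' x = f.d x := hP.dlo.mono fun x hx h => max_eq_left (hx h)
  have hS : MeasurableSet (Hs ∩ ball x0 8) := measurableSet_Hs.inter measurableSet_ball
  have hℓ := (lo_dw α he hd1 hN hP.pos hd2).1.1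
  have q1 := lo_bar (S := Hs ∩ ball x0 8) (Λ := Λ) hS he hd1 hN hR hP.pos hd2
    (.of_forall fun x => (hC.nn x).2.2.2.2.2) ((li_aa D m2).mono (subset_univ _)) hα hα' hΛ
    (by
      filter_upwards [hbc, hd3, hC.pyth] with x h1 h2 h3 hx
      rw [h2 hx.1]
      exact ⟨(h1 hx.2).2.2.1, (hC.nn x).1, h3.2.2.2⟩)
    (fun σ hσ => (hP.sube σ hσ).mono (inter_subset_right.trans hsub))
    (fun σ hσ => ((hP.subd σ hσ).mono (subset_univ _)).congr_on (hd.const_mul σ).1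
      (hd1.const_mul σ).1 (hd3.mono fun x hx h => by rw [hx h.1]))
    (hP.subN.mono (subset_univ _))
  obtain ⟨hl, q2⟩ := lo_sup hc hδ hC.hR pR hM hτ
  have q3 := (lo_comb hR.sq.1 hℓ hl q1 (q2.mono inter_subset_left)).weaken (C' := 8 * Λ + 8 + 2)
    (fun x => by positivity) (by linarith)
  have hlog : ∀ᵐ x : X, x ∈ ball x0 8 → 0 < x 2 → 0 < f.e x ∧ 0 < f.R x ∧
      |loL α (f.e x) (d' x) (f.N x) - (Real.log (f.e x) - Real.log (f.R x))| ≤ 4 := by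
    filter_upwards [hbc, hd3, hC.pyth, hP.dlo, heR] with x h1 h2 h3 h4 h5 h6 h7
    obtain ⟨a1, -, a2, a3⟩ := h1 h6
    rw [h2 h7]
    exact ⟨hm.trans_le a1, (hm.trans_le a1).trans_le h5,
      lo_log hα hα' hL hαL (hm.trans_le a1) (h4 h7) a2 (hC.nn x).1 h3.2.2.2 a3⟩
  set v : X → ℝ := fun x => loL α (f.e x) (d' x) (f.N x) - Real.log (P x / f.R x + τ) with hv
  have hv1 : LH eX v := hℓ.sub hl
  have hq : LH eX fun x => χ x * max (v x - 5) 0 :=
    (LH.of_contDiff (c1.of_le one_le_two)).mul (hv1.sub (LH.const 5)).posPart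
  have hv5 : ∀ᵐ x : X, 0 < x 2 → f.e x ≤ 2 * P x → χ x * max (v x - 5) 0 = 0 := by
    filter_upwards [hlog] with x h1 h2 h3
    by_cases hx : x ∈ ball x0 8
    · obtain ⟨a1, a2, a3⟩ := h1 hx h2
      rw [max_eq_right (sub_nonpos.2 (lo_v_le a3 a1 a2 hτ h3)), mul_zero]
    · rw [c5 x (by rw [mem_ball_iff_norm, not_lt] at hx; linarith), zero_mul]
  have hst : Strip fun x => χ x * max (v x - 5) 0 := by
    refine (Strip.of_odd hc.hb.hl (.of_forall hc.b_odd)).mono hc.hb.hl.1 hq.aesm fun ρ => ?_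
    obtain ⟨M', hM'⟩ := hq.2 ρ
    refine ⟨|M'| / (m / 2), 1, one_pos, ?_⟩
    filter_upwards [hM', hv5, hbc, hc.sq, heR] with x h1 h2 h3 h4 h5 h6 _ h8
    rcases le_or_gt (m / 2) |b x| with h9 | h9
    · refine (h1 h8).trans ((le_abs_self _).trans ?_)
      rw [div_mul_eq_mul_div, le_div_iff₀ (half_pos hm)]
      exact mul_le_mul_of_nonneg_left h9 (abs_nonneg _)
    · have : χ x * max (v x - 5) 0 = 0 := by
        by_cases hx : x ∈ ball x0 8
        · have a1 := (h3 hx).1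
          refine h2 h6 (abs_le_of_sq_le_sq' ?_ (by linarith [hc.P_nn x])).2
          nlinarith [sq_abs (b x), abs_nonneg (b x)]
        · rw [c5 x (by rw [mem_ball_iff_norm, not_lt] at hx; linarith), zero_mul]
      rw [this, abs_zero]
      positivity
  have hy := hq.indicator_Hs hst
  have hy0 : ∀ x, 0 ≤ Hs.indicator (fun x => χ x * max (v x - 5) 0) x := fun x =>
    indicator_nonneg (fun x _ => mul_nonneg (c3 x).1 (le_max_right _ _)) x
  have hy1 : ∀ x, 0 < Hs.indicator (fun x => χ x * max (v x - 5) 0) x → x ∈ Hs := fun x hx => by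
    by_contra h
    rw [indicator_of_notMem h] at hx
    exact lt_irrefl _ hx
  have hy2 : ∀ x ∈ ball x0 7, x ∈ Hs →
      Hs.indicator (fun x => χ x * max (v x - 5) 0) x = max (v x - 5) 0 := fun x h1 h2 => by
    rw [indicator_of_mem h2, c4 x (mem_ball_iff_norm.1 h1).le, one_mul]
  have b78 : ball x0 7 ⊆ ball x0 8 := ball_subset_ball (by norm_num)
  have q4 := hB _ _ x0 (Real.exp (-8) * m ^ 2) (by positivity) hy
    (hR.sq.1.mul (hℓ.const_mul 2).exp.1) (.of_forall hy0) ?_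
    (q3.congr_on (k := 5) (fun x hx => ⟨hy1 x hx.2, b78 hx.1⟩) hv1 hy (.of_forall fun x hx => ?_))
    (hz.trans (measure_mono_ae ?_))
  · filter_upwards [q4, hlog] with x h1 h2 h3 h4
    obtain ⟨a1, a2, a3⟩ := h2 (ball_subset_ball (by norm_num) h3) h4
    refine lo_e_le a3 a1 a2 hτ (hc.P_nn x) ?_
    have a4 := h1 h3
    rw [hy2 x (ball_subset_ball (by norm_num) h3) h4] at a4
    linarith [le_max_left (v x - 5) 0, le_abs_self B]
  · filter_upwards [hlog, hbc] with x h1 h2 h3 h4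
    obtain ⟨a1, a2, a3⟩ := h1 (b78 h3) (hy1 x h4)
    obtain ⟨a4, a5⟩ := lo_W_bd a3 a1 a2
    obtain ⟨a6, a7, -⟩ := h2 (b78 h3)
    refine ⟨le_trans (by gcongr) a4, a5.trans ?_⟩
    have : Real.exp 16 * Λ ^ 2 * (Real.exp (-8) * m ^ 2) = Real.exp 8 * (Λ * m) ^ 2 := by
      rw [show Real.exp 8 = Real.exp 16 * Real.exp (-8) by rw [← Real.exp_add]; norm_num]
      ring
    rw [this]
    gcongr
  · have a1 := hx.2
    rw [hy2 x hx.1 (hy1 x hx.2)] at a1 ⊢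
    exact max_eq_left (not_lt.1 fun h => by rw [max_eq_right h.le] at a1; exact lt_irrefl _ a1)
  · filter_upwards [hv5] with x h1 hx
    refine ⟨hx.1, ?_⟩
    by_cases h2 : x ∈ Hs
    · rw [indicator_of_mem h2]
      exact h1 h2 (hx.2.resolve_left (not_le.2 h2))
    · exact indicator_of_notMem h2 _

theorem lo_ball (Λ θ : ℝ) (hθ : 0 < θ) : ∃ Λ' : ℝ, 1 ≤ Λ' ∧
    ∀ c C1 C2 K R0 ϱ D l g u eg eu M η m2 de f δ P b x0,
    Chan c C1 D l g u eg eu M η m2 de f → Prof Λ C2 K R0 ϱ D l g (eu - eg) M m2 f →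
    Cert δ P b f.R → 0 ≤ δ → δ ≤ 1 → BC Λ f x0 → ball x0 8 ⊆ Sig (5 * R0) 8 →
    ENNReal.ofReal θ ≤ volume {x : X | x ∈ ball x0 6 ∧ (x 2 ≤ 0 ∨ f.e x ≤ 2 * P x)} →
    ∀ᵐ x : X, x ∈ ball x0 4 → 0 < x 2 → f.e x ≤ Λ' * P x := by
  obtain ⟨Λ', h1, h2⟩ := lo_ball_tau Λ θ hθ
  refine ⟨Λ', h1, fun c C1 C2 K R0 ϱ D l g u eg eu M η m2 de f δ P b x0 a1 a2 a3 a4 a5 a6 a7 a8 => ?_⟩
  filter_upwards [ae_all_iff.2 fun n : ℕ => h2 c C1 C2 K R0 ϱ D l g u eg eu M η m2 de f δ P b x0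
    (1 / ((n : ℝ) + 1)) a1 a2 a3 a4 a5 a6 a7 a8 Nat.one_div_pos_of_nat] with x hx b1 b2
  have t : Tendsto (fun n : ℕ => Λ' * (P x + 1 / ((n : ℝ) + 1) * f.R x)) atTop
      (𝓝 (Λ' * (P x + 0 * f.R x))) :=
    ((tendsto_one_div_add_atTop_nhds_zero_nat.mul_const _).const_add _).const_mul _
  rw [zero_mul, add_zero] at t
  exact ge_of_tendsto' t fun n => hx n b1 b2

end Crest.Agent.R335
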