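/-
R335/LO/Meas: the zero set is large.  Skeleton by helper14.
-/
import Crest.Agent.R335.LO.Defs

set_option autoImplicit false
set_option linter.unusedSectionVars false
set_option linter.unusedVariables false
set_option linter.unusedSimpArgs false

noncomputable section

namespace Crest.Agent.R335

open MeasureTheory Set Filter Topology Metric
open scoped ENNReal

/-- The lower half of a ball centred on the plane contains a ball of radius 3. -/
theorem lo_meas_plane (x0 : X) (h : x0 2 = 0) (p : X → Prop) :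
    volume (ball (0 : X) 3) ≤ volume {x : X | x ∈ ball x0 6 ∧ (x 2 ≤ 0 ∨ p x)} := by
  rw [← Measure.addHaar_ball_center volume (x0 - EuclideanSpace.single 2 3)]
  refine measure_mono fun x hx => ?_
  have h1 : ‖x - (x0 - EuclideanSpace.single 2 3)‖ < 3 := mem_ball_iff_norm.1 hx
  have h2 := PiLp.norm_apply_le (x - (x0 - EuclideanSpace.single 2 3)) 2
  have h3 : (x - (x0 - EuclideanSpace.single 2 3) : X) 2 = x 2 + 3 := by simp [h]
  rw [h3, Real.norm_eq_abs] at h2
  refine ⟨mem_ball_iff_norm.2 ?_, Or.inl (by linarith [le_abs_self (x 2 + 3)])⟩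
  have h4 := norm_sub_le (x - (x0 - EuclideanSpace.single 2 3)) (EuclideanSpace.single 2 3 : X)
  have h5 : x - (x0 - EuclideanSpace.single 2 3) - EuclideanSpace.single 2 3 = x - x0 := by abel
  have h6 : ‖(EuclideanSpace.single 2 3 : X)‖ = 3 := by simp
  rw [h5, h6] at h4
  linarith

/-- Chebyshev: `g ≥ γ > 0` on the ball of radius `ρ` (`g_lo`), and `(P - √2 g)² ≥ (√2 - 1)² γ²`
where `P < g`. -/
theorem lo_cheb {c C D eg eu : ℝ} {g u : X → ℝ} (h : OB c C D g u eg eu) (ρ θ : ℝ) (hθ : 0 < θ) :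
    ∃ η3 : ℝ, 0 < η3 ∧ ∀ P : X → ℝ, MemLp P 2 volume → ∫ x, (P x - √2 * g x) ^ 2 ≤ η3 ^ 2 →
      volume {x : X | ‖x‖ ≤ ρ ∧ P x < g x} ≤ ENNReal.ofReal θ := by
  have hC : 0 < C := by linarith [h.C_ge]
  set γ := C⁻¹ * Real.exp (-(1001 / 1000) * (ρ + ‖nuc D‖)) with hγ
  have hγ0 : 0 < γ := by positivity
  have hg : ∀ᵐ x : X, ‖x‖ ≤ ρ → γ ≤ g x := by
    filter_upwards [h.g_lo] with x hx h1
    refine le_trans (mul_le_mul_of_nonneg_left ?_ (by positivity)) hx
    have : tp D x ≤ ρ + ‖nuc D‖ := (norm_sub_le _ _).trans (by linarith)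
    have := Real.exp_le_exp.2 (by linarith : -(1001 / 1000) * (ρ + ‖nuc D‖) ≤ -(1001 / 1000) * tp D x)
    linarith [Real.exp_pos (-(1001 / 1000) * tm D x)]
  refine ⟨γ / 4 * √θ, by positivity, fun P hP hle => ?_⟩
  have hi : Integrable fun x => (P x - √2 * g x) ^ 2 := (hP.sub (h.hg.1.const_mul √2)).integrable_sq
  have h1 := mul_meas_ge_le_integral_of_nonneg (.of_forall fun x => sq_nonneg _) hi ((γ / 4) ^ 2)
  have h2 : volume {x : X | (γ / 4) ^ 2 ≤ (P x - √2 * g x) ^ 2} ≠ ⊤ :=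
    (hi.measure_ge_lt_top (by positivity)).ne
  rw [mul_pow, Real.sq_sqrt hθ.le] at hle
  have h3 := le_of_mul_le_mul_left (h1.trans hle) (by positivity)
  refine le_trans (measure_mono_ae ?_) ((ENNReal.le_ofReal_iff_toReal_le h2 hθ.le).2 h3)
  filter_upwards [hg] with x hx hm
  have a1 := hx hm.1
  have a2 : P x < g x := hm.2
  have a3 : 5 / 4 ≤ √2 := Real.le_sqrt_of_sq_le (by norm_num)
  have a4 : γ / 4 ≤ -(P x - √2 * g x) := by nlinarith
  show (γ / 4) ^ 2 ≤ (P x - √2 * g x) ^ 2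
  nlinarith

end Crest.Agent.R335
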