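/-
R335/LO/Main: block LO (see R335/Notes)
Skeleton by helper48 (row 335); keep the statements unchanged, add any helper lemmas you like.
-/
import Crest.Agent.R335.LO.Ball
import Crest.Agent.R335.LO.Meas
import Crest.Agent.R335.Assemble

set_option autoImplicit false
set_option linter.unusedSectionVars false
set_option linter.unusedVariables false
set_option linter.unusedSimpArgs false

noncomputable section

namespace Crest.Agent.R335

open MeasureTheory Set Filter Topology Metric
open scoped ENNReal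

/-- The projection to the plane. -/
def loPr (x : X) : X := x - EuclideanSpace.single 2 (x 2)

theorem loPr_two (x : X) : loPr x 2 = 0 := by simp [loPr]

theorem loPr_dist (x : X) : dist x (loPr x) = |x 2| := by
  simp [loPr, dist_eq_norm]

theorem lo_abs_two (x : X) : |x 2| ≤ ‖x‖ := by
  simpa using PiLp.norm_apply_le x 2

theorem stLow : StLow := by
  intro Λ
  have hV0 : volume (ball (0 : X) 3) ≠ 0 := (measure_ball_pos _ _ (by norm_num)).ne'
  have hV1 : volume (ball (0 : X) 3) ≠ ⊤ := measure_ball_lt_top.ne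
  set θ := (volume (ball (0 : X) 3)).toReal / 2 with hθ
  have hθ0 : 0 < θ := half_pos (ENNReal.toReal_pos hV0 hV1)
  have hθ2 : ENNReal.ofReal θ + ENNReal.ofReal θ = volume (ball (0 : X) 3) := by
    rw [← ENNReal.ofReal_add hθ0.le hθ0.le, hθ, add_halves, ENNReal.ofReal_toReal hV1]
  obtain ⟨Λ', h1, h2⟩ := lo_ball Λ θ hθ0
  refine ⟨Λ', h1, fun c C D g u eg eu hO R0 => ?_⟩
  obtain ⟨η3, h3, h4⟩ := lo_cheb hO (5 * R0) θ hθ0
  refine ⟨η3, h3, fun C1 C2 K ϱ l M η m2 de f δ P b hC hP hc hδ hδ1 hcl => ?_⟩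
  have hR0 : 100 ≤ R0 := by linarith [hP.R0_ge, hO.D_ge]
  have h5 := h4 P hc.hP.1 hcl
  -- the estimate on the admissible balls
  have hb : ∀ x0 : X, ‖x0‖ ≤ 4 * R0 ∨ x0 2 = 0 →
      ∀ᵐ x : X, x ∈ ball x0 4 → 0 < x 2 → f.e x ≤ Λ' * P x := by
    intro x0 hx0
    refine h2 c C1 C2 K R0 ϱ D l g u eg eu M η m2 de f δ P b x0 hC hP hc hδ hδ1
      (hP.bc x0 (hx0.imp_left fun h => by linarith)) (fun x hx => ?_) ?_
    · rcases hx0 with h | h
      · left
        have := norm_add_le (x - x0) x0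
        rw [sub_add_cancel] at this
        linarith [mem_ball_iff_norm.1 hx]
      · right
        have := lo_abs_two (x - x0)
        rw [PiLp.sub_apply, h, sub_zero] at this
        linarith [mem_ball_iff_norm.1 hx]
    · rcases hx0 with h | h
      · have a1 : volume (ball x0 3) ≤ volume {x : X | x ∈ ball x0 6 ∧ (x 2 ≤ 0 ∨ f.e x ≤ 2 * P x)} +
            volume {x : X | ‖x‖ ≤ 5 * R0 ∧ P x < g x} := by
          refine (measure_mono_ae ?_).trans (measure_union_le _ _)
          filter_upwards [hP.inner] with x hx hm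
          have hm' : ‖x - x0‖ < 3 := mem_ball_iff_norm.1 hm
          have a2 : ‖x‖ ≤ 5 * R0 := by
            have := norm_add_le (x - x0) x0
            rw [sub_add_cancel] at this
            linarith
          rcases lt_or_ge (P x) (g x) with a3 | a3
          · exact Or.inr ⟨a2, a3⟩
          · exact Or.inl ⟨mem_ball_iff_norm.2 (by linarith), Or.inr (by linarith [(hx a2).2])⟩
        rw [Measure.addHaar_ball_center, ← hθ2] at a1
        exact (ENNReal.add_le_add_iff_right ENNReal.ofReal_ne_top).1 (a1.trans (add_le_add le_rfl h5))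
      · exact (hθ2 ▸ le_self_add).trans (lo_meas_plane x0 h _)
  -- cover
  have hh : ∀ᵐ x : X, 0 < x 2 → x ∈ Sig (4 * R0) 3 → f.e x ≤ Λ' * P x := by
    rw [ae_iff]
    refine measure_null_of_locally_null _ fun x hx => ?_
    simp only [mem_ofPred_eq, Classical.not_imp] at hx
    obtain ⟨x0, a1, a2⟩ : ∃ x0 : X, (‖x0‖ ≤ 4 * R0 ∨ x0 2 = 0) ∧ x ∈ ball x0 4 := by
      rcases hx.2.1 with h | h
      · exact ⟨x, Or.inl h, mem_ball_self (by norm_num)⟩
      · exact ⟨loPr x, Or.inr (loPr_two x), by rw [mem_ball, loPr_dist]; linarith⟩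
    refine ⟨_, inter_mem_nhdsWithin _ (isOpen_ball.mem_nhds a2), ?_⟩
    refine measure_mono_null (fun y hy => ?_) (ae_iff.1 (hb x0 a1))
    simp only [mem_inter_iff, mem_ofPred_eq, Classical.not_imp] at hy ⊢
    exact ⟨hy.2, hy.1.1, hy.1.2.2⟩
  refine ae_of_half hh ?_
  filter_upwards [hC.par] with x hx h hs
  have a1 : f.e (rf x) = f.e x := by
    simp only [Fns.e, hx.2.2.2.2.2.2.2.1, hx.2.2.2.2.2.2.2.2.1, hx.2.2.2.2.2.2.2.2.2.1]
  have a2 : rf x ∈ Sig (4 * R0) 3 := by
    simpa only [Sig, mem_ofPred_eq, norm_rf, rf_two, abs_neg] using hs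
  simpa only [a1, hc.P_even] using h a2

end Crest.Agent.R335
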